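import Vale.Agent.P113.Defs

namespace Vale.Agent.P113
open Finset

attribute [fun_prop] Primrec PrimrecPred

section
variable {A B C : Type} [Primcodable A] [Primcodable B] [Primcodable C]

@[fun_prop] theorem pr_id : Primrec (fun a : A => a) := Primrec.id
@[fun_prop] theorem pr_const (b : B) : Primrec (fun _ : A => b) := Primrec.const b
@[fun_prop] theorem pr_comp {f : B → C} {g : A → B} (hf : Primrec f) (hg : Primrec g) :
    Primrec (fun a => f (g a)) := hf.comp hg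
@[fun_prop] theorem pr_fst {g : A → B × C} (hg : Primrec g) : Primrec (fun a => (g a).1) :=
  Primrec.fst.comp hg
@[fun_prop] theorem pr_snd {g : A → B × C} (hg : Primrec g) : Primrec (fun a => (g a).2) :=
  Primrec.snd.comp hg
@[fun_prop] theorem pr_pair {f : A → B} {g : A → C} (hf : Primrec f) (hg : Primrec g) :
    Primrec (fun a => (f a, g a)) := hf.pair hg
@[fun_prop] theorem pr_add {f g : A → ℕ} (hf : Primrec f) (hg : Primrec g) :
    Primrec (fun a => f a + g a) := Primrec.nat_add.comp hf hg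
@[fun_prop] theorem pr_sub {f g : A → ℕ} (hf : Primrec f) (hg : Primrec g) :
    Primrec (fun a => f a - g a) := Primrec.nat_sub.comp hf hg
@[fun_prop] theorem pr_mul {f g : A → ℕ} (hf : Primrec f) (hg : Primrec g) :
    Primrec (fun a => f a * g a) := Primrec.nat_mul.comp hf hg
@[fun_prop] theorem pr_div {f g : A → ℕ} (hf : Primrec f) (hg : Primrec g) :
    Primrec (fun a => f a / g a) := Primrec.nat_div.comp hf hg
@[fun_prop] theorem pr_mod {f g : A → ℕ} (hf : Primrec f) (hg : Primrec g) :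
    Primrec (fun a => f a % g a) := Primrec.nat_mod.comp hf hg
@[fun_prop] theorem pr_lt {f g : A → ℕ} (hf : Primrec f) (hg : Primrec g) :
    PrimrecPred (fun a => f a < g a) := Primrec.nat_lt.comp hf hg
@[fun_prop] theorem pr_le {f g : A → ℕ} (hf : Primrec f) (hg : Primrec g) :
    PrimrecPred (fun a => f a ≤ g a) := Primrec.nat_le.comp hf hg
@[fun_prop] theorem pr_eq {f g : A → B} (hf : Primrec f) (hg : Primrec g) :
    PrimrecPred (fun a => f a = g a) := Primrec.eq.comp hf hg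
@[fun_prop] theorem pr_and {p q : A → Prop} (hf : PrimrecPred p) (hg : PrimrecPred q) :
    PrimrecPred (fun a => p a ∧ q a) := hf.and hg
@[fun_prop] theorem pr_or {p q : A → Prop} (hf : PrimrecPred p) (hg : PrimrecPred q) :
    PrimrecPred (fun a => p a ∨ q a) := hf.or hg
@[fun_prop] theorem prp_comp {p : B → Prop} {g : A → B} (hf : PrimrecPred p) (hg : Primrec g) :
    PrimrecPred (fun a => p (g a)) := hf.comp hg
@[fun_prop] theorem pr_ite {c : A → Prop} [DecidablePred c] {f g : A → B} (hc : PrimrecPred c)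
    (hf : Primrec f) (hg : Primrec g) : Primrec (fun a => if c a then f a else g a) :=
  Primrec.ite hc hf hg
@[fun_prop] theorem pr_cons {f : A → B} {g : A → List B} (hf : Primrec f) (hg : Primrec g) :
    Primrec (fun a => f a :: g a) := Primrec.list_cons.comp hf hg
@[fun_prop] theorem pr_append {f g : A → List B} (hf : Primrec f) (hg : Primrec g) :
    Primrec (fun a => f a ++ g a) := Primrec.list_append.comp hf hg
@[fun_prop] theorem pr_length {g : A → List B} (hg : Primrec g) :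
    Primrec (fun a => (g a).length) := Primrec.list_length.comp hg
@[fun_prop] theorem pr_getD (d : B) {g : A → List B} {n : A → ℕ} (hg : Primrec g) (hn : Primrec n) :
    Primrec (fun a => (g a).getD (n a) d) := (Primrec.list_getD d).comp hg hn
@[fun_prop] theorem pr_not {g : A → Bool} (hg : Primrec g) : Primrec (fun a => !g a) :=
  Primrec.not.comp hg

theorem pr_rec {f : A → ℕ} {g : A → B} {h : A × ℕ × B → B} (hf : Primrec f) (hg : Primrec g)
    (hh : Primrec h) :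
    Primrec fun a => Nat.rec (motive := fun _ => B) (g a) (fun n IH => h (a, n, IH)) (f a) :=
  Primrec.nat_rec' (h := fun a p => h (a, p)) hf hg hh.to₂

@[fun_prop] theorem pr_pow {f g : A → ℕ} (hf : Primrec f) (hg : Primrec g) :
    Primrec (fun a => f a ^ g a) := by
  refine (pr_rec (h := fun p => p.2.2 * f p.1) hg (Primrec.const 1) (by fun_prop)).of_eq fun a => ?_
  induction g a with
  | zero => simp
  | succ n ih => simp only [pow_succ, ← ih]

@[fun_prop] theorem pr_fact {g : A → ℕ} (hg : Primrec g) : Primrec (fun a => (g a).factorial) := by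
  refine (pr_rec (h := fun p => (p.2.1 + 1) * p.2.2) hg (Primrec.const 1) (by fun_prop)).of_eq
    fun a => ?_
  induction g a with
  | zero => simp
  | succ n ih => simp only [Nat.factorial_succ, ← ih]

@[fun_prop] theorem pr_mem {f : A → ℕ} {g : A → List ℕ} (hf : Primrec f) (hg : Primrec g) :
    PrimrecPred (fun a => f a ∈ g a) :=
  (pr_lt (Primrec.list_idxOf.comp hf hg) (pr_length hg)).of_eq fun _ => List.idxOf_lt_length_iff

theorem pr_count {g : A → List (Fin 4)} (i : Fin 4) (hg : Primrec g) :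
    Primrec (fun a => (g a).count i) := by
  have h := Primrec.list_foldr (f := g) (g := fun _ => 0)
    (h := fun _ (p : Fin 4 × ℕ) => p.2 + if p.1 = i then 1 else 0) hg (Primrec.const 0)
    (Primrec₂.mk (by fun_prop))
  refine h.of_eq fun a => ?_
  induction g a with
  | nil => simp
  | cons x l ih => simp only [List.foldr_cons, List.count_cons, ih, beq_iff_eq]

/-- exactly computable rational-valued function -/
@[fun_prop] def ER (F : A → ℝ) : Prop := ∃ g : A → Q3, Primrec g ∧ ∀ a, F a = rat (g a)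

def qadd (r s : Q3) : Q3 := (r.1 * (s.2.2 + 1) + s.1 * (r.2.2 + 1),
  r.2.1 * (s.2.2 + 1) + s.2.1 * (r.2.2 + 1), r.2.2 * s.2.2 + r.2.2 + s.2.2)

def qmul (r s : Q3) : Q3 := (r.1 * s.1 + r.2.1 * s.2.1, r.1 * s.2.1 + r.2.1 * s.1,
  r.2.2 * s.2.2 + r.2.2 + s.2.2)

lemma rat_add (r s : Q3) : rat (qadd r s) = rat r + rat s := by
  have : ((r.2.2 : ℝ) * s.2.2 + r.2.2 + s.2.2 + 1) = (r.2.2 + 1) * (s.2.2 + 1) := by ring
  simp only [rat, qadd]; push_cast; rw [this]; field_simp; ring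

lemma rat_mul (r s : Q3) : rat (qmul r s) = rat r * rat s := by
  have : ((r.2.2 : ℝ) * s.2.2 + r.2.2 + s.2.2 + 1) = (r.2.2 + 1) * (s.2.2 + 1) := by ring
  simp only [rat, qmul]; push_cast; rw [this]; field_simp; ring

@[fun_prop] theorem pr_qadd {f g : A → Q3} (hf : Primrec f) (hg : Primrec g) :
    Primrec (fun a => qadd (f a) (g a)) := by unfold qadd; fun_prop

@[fun_prop] theorem pr_qmul {f g : A → Q3} (hf : Primrec f) (hg : Primrec g) :
    Primrec (fun a => qmul (f a) (g a)) := by unfold qmul; fun_prop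

theorem ER.of_eq {F G : A → ℝ} (h : ER F) (H : ∀ a, F a = G a) : ER G := funext H ▸ h

@[fun_prop] theorem ER.comp {F : B → ℝ} {g : A → B} (hf : ER F) (hg : Primrec g) :
    ER (fun a => F (g a)) := by
  obtain ⟨f, h1, h2⟩ := hf
  exact ⟨fun a => f (g a), h1.comp hg, fun a => h2 _⟩

@[fun_prop] theorem ER.rat {g : A → Q3} (hg : Primrec g) : ER (fun a => rat (g a)) :=
  ⟨g, hg, fun _ => rfl⟩

@[fun_prop] theorem ER.nat {g : A → ℕ} (hg : Primrec g) : ER (fun a => (g a : ℝ)) :=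
  ⟨fun a => (g a, 0, 0), by fun_prop, fun a => by simp [P113.rat]⟩

theorem ER.cst (n : ℕ) : ER (fun _ : A => (n : ℝ)) := ER.nat (Primrec.const n)

@[fun_prop] theorem ER.ofNat (n : ℕ) [n.AtLeastTwo] : ER (fun _ : A => (OfNat.ofNat n : ℝ)) :=
  ER.cst n

@[fun_prop] theorem ER.zero : ER (fun _ : A => (0 : ℝ)) := (ER.cst 0).of_eq fun _ => by simp

@[fun_prop] theorem ER.one : ER (fun _ : A => (1 : ℝ)) := (ER.cst 1).of_eq fun _ => by simp

@[fun_prop] theorem ER.add {F G : A → ℝ} (hf : ER F) (hg : ER G) : ER (fun a => F a + G a) := by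
  obtain ⟨f, h1, h2⟩ := hf
  obtain ⟨g, h3, h4⟩ := hg
  exact ⟨fun a => qadd (f a) (g a), by fun_prop, fun a => by beta_reduce; rw [rat_add, h2, h4]⟩

@[fun_prop] theorem ER.mul {F G : A → ℝ} (hf : ER F) (hg : ER G) : ER (fun a => F a * G a) := by
  obtain ⟨f, h1, h2⟩ := hf
  obtain ⟨g, h3, h4⟩ := hg
  exact ⟨fun a => qmul (f a) (g a), by fun_prop, fun a => by beta_reduce; rw [rat_mul, h2, h4]⟩

@[fun_prop] theorem ER.neg {F : A → ℝ} (hf : ER F) : ER (fun a => -F a) := by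
  obtain ⟨f, h1, h2⟩ := hf
  exact ⟨fun a => ((f a).2.1, (f a).1, (f a).2.2), by fun_prop, fun a => by
    beta_reduce; rw [h2]; simp only [P113.rat]; ring⟩

@[fun_prop] theorem ER.sub {F G : A → ℝ} (hf : ER F) (hg : ER G) : ER (fun a => F a - G a) :=
  (hf.add hg.neg).of_eq fun _ => by ring

@[fun_prop] theorem ER.inv {F : A → ℝ} (hf : ER F) : ER (fun a => (F a)⁻¹) := by
  obtain ⟨f, h1, h2⟩ := hf
  refine ⟨fun a => if (f a).2.1 < (f a).1 then ((f a).2.2 + 1, 0, (f a).1 - (f a).2.1 - 1)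
    else if (f a).1 < (f a).2.1 then (0, (f a).2.2 + 1, (f a).2.1 - (f a).1 - 1) else (0, 0, 0),
    by fun_prop, fun a => ?_⟩
  beta_reduce
  rw [h2]
  obtain ⟨x, y, z⟩ := f a
  simp only [P113.rat]
  split_ifs with h h'
  · obtain ⟨k, rfl⟩ := Nat.exists_eq_add_of_lt h
    rw [show y + k + 1 - y - 1 = k by omega]
    push_cast; rw [inv_div]; congr 1 <;> ring
  · obtain ⟨k, rfl⟩ := Nat.exists_eq_add_of_lt h'
    rw [show x + k + 1 - x - 1 = k by omega]
    push_cast; rw [inv_div, show (x : ℝ) - (x + k + 1) = -(k + 1) by ring, div_neg, zero_sub, neg_div]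
  · rw [show x = y by omega]; simp

@[fun_prop] theorem ER.div {F G : A → ℝ} (hf : ER F) (hg : ER G) : ER (fun a => F a / G a) :=
  (hf.mul hg.inv).of_eq fun _ => by rw [div_eq_mul_inv]

@[fun_prop] theorem ER.pow {F : A → ℝ} {n : A → ℕ} (hf : ER F) (hn : Primrec n) :
    ER (fun a => F a ^ n a) := by
  obtain ⟨f, h1, h2⟩ := hf
  refine ⟨_, pr_rec (h := fun p => qmul p.2.2 (f p.1)) hn (Primrec.const ((1, 0, 0) : Q3))
    (by fun_prop), fun a => ?_⟩
  beta_reduce
  induction n a with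
  | zero => simp [P113.rat]
  | succ n ih => simp only [pow_succ, rat_mul, ← ih, h2]

theorem ER.sum {F : A → ℕ → ℝ} {n : A → ℕ} (hf : ER fun p : A × ℕ => F p.1 p.2) (hn : Primrec n) :
    ER (fun a => ∑ i ∈ range (n a), F a i) := by
  obtain ⟨f, h1, h2⟩ := hf
  refine ⟨_, pr_rec (h := fun p => qadd p.2.2 (f (p.1, p.2.1))) hn
    (Primrec.const ((0, 0, 0) : Q3)) (by fun_prop), fun a => ?_⟩
  beta_reduce
  induction n a with
  | zero => simp [P113.rat]
  | succ n ih => simp only [sum_range_succ, rat_add, ← ih, ← h2]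

@[fun_prop] theorem ER.ite {c : A → Prop} [DecidablePred c] {F G : A → ℝ} (hc : PrimrecPred c)
    (hf : ER F) (hg : ER G) : ER (fun a => if c a then F a else G a) := by
  obtain ⟨f, h1, h2⟩ := hf
  obtain ⟨g, h3, h4⟩ := hg
  exact ⟨fun a => if c a then f a else g a, by fun_prop, fun a => by beta_reduce; split_ifs <;> simp [*]⟩

theorem ER.le {F G : A → ℝ} (hf : ER F) (hg : ER G) : PrimrecPred (fun a => F a ≤ G a) := by
  obtain ⟨f, h1, h2⟩ := hf.sub hg
  refine (show PrimrecPred fun a => (f a).1 ≤ (f a).2.1 by fun_prop).of_eq fun a => ?_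
  rw [← sub_nonpos (a := F a), show F a - G a = _ from h2 a, P113.rat, div_nonpos_iff]
  have : (0 : ℝ) < (f a).2.2 + 1 := by positivity
  simp [this.le, this.not_ge]

@[fun_prop] theorem ER.fract {F : A → ℝ} (hf : ER F) : ER (fun a => Int.fract (F a)) := by
  obtain ⟨f, h1, h2⟩ := hf
  refine ⟨fun a => (((f a).1 + (f a).2.1 * (f a).2.2) % ((f a).2.2 + 1), 0, (f a).2.2),
    by fun_prop, fun a => ?_⟩
  beta_reduce
  rw [h2]
  obtain ⟨x, y, z⟩ := f a
  simp only [P113.rat]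
  have h3 : ((x : ℝ) - y) / (z + 1) = ((x + y * z : ℕ) : ℝ) / ((z + 1 : ℕ) : ℝ) - (y : ℕ) := by
    push_cast; field_simp; ring
  rw [h3, Int.fract_sub_natCast, Int.fract_div_natCast_eq_div_natCast_mod]
  simp

lemma abs_rat_le (r : Q3) : |rat r| ≤ (r.1 + r.2.1 : ℕ) := by
  rw [rat, abs_div, abs_of_pos (a := (r.2.2 : ℝ) + 1) (by positivity)]
  refine (div_le_self (abs_nonneg _) (by linarith [(Nat.cast_nonneg r.2.2 : (0 : ℝ) ≤ _)])).trans ?_
  push_cast
  rw [abs_le]
  constructor <;> linarith [(Nat.cast_nonneg r.1 : (0 : ℝ) ≤ _), (Nat.cast_nonneg r.2.1 : (0 : ℝ) ≤ _)]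

theorem ER.bound {F : A → ℝ} (hf : ER F) : ∃ b : A → ℕ, Primrec b ∧ ∀ a, |F a| ≤ b a := by
  obtain ⟨f, h1, h2⟩ := hf
  exact ⟨fun a => (f a).1 + (f a).2.1, by fun_prop, fun a => h2 a ▸ abs_rat_le _⟩

/-- uniformly approximable real-valued function -/
@[fun_prop] def PR (F : A → ℝ) : Prop :=
  ∃ G : A × ℕ → ℝ, ER G ∧ ∀ a n, |F a - G (a, n)| ≤ 1 / (n + 1)

theorem PR.of_eq {F G : A → ℝ} (h : PR F) (H : ∀ a, F a = G a) : PR G := funext H ▸ h

theorem ER.pr {F : A → ℝ} (h : ER F) : PR F :=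
  ⟨fun p => F p.1, by fun_prop, fun a n => by simp; positivity⟩

@[fun_prop] theorem PR.comp {F : B → ℝ} {g : A → B} (hf : PR F) (hg : Primrec g) :
    PR (fun a => F (g a)) := by
  obtain ⟨G, h1, h2⟩ := hf
  exact ⟨fun p => G (g p.1, p.2), by fun_prop, fun a n => h2 _ _⟩

@[fun_prop] theorem PR.add {F G : A → ℝ} (hf : PR F) (hg : PR G) : PR (fun a => F a + G a) := by
  obtain ⟨f, h1, h2⟩ := hf
  obtain ⟨g, h3, h4⟩ := hg
  refine ⟨fun p => f (p.1, 2 * p.2 + 1) + g (p.1, 2 * p.2 + 1), by fun_prop, fun a n => ?_⟩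
  beta_reduce
  have h5 := h2 a (2 * n + 1)
  have h6 := h4 a (2 * n + 1)
  have h7 : (1 : ℝ) / (n + 1) = 1 / ((2 * n + 1 : ℕ) + 1) + 1 / ((2 * n + 1 : ℕ) + 1) := by
    push_cast; field_simp; ring
  rw [h7, add_sub_add_comm]
  exact (abs_add_le _ _).trans (add_le_add h5 h6)

theorem PR.bound {F : A → ℝ} (hf : PR F) : ∃ b : A → ℕ, Primrec b ∧ ∀ a, |F a| ≤ b a := by
  obtain ⟨f, h1, h2⟩ := hf
  obtain ⟨b, h3, h4⟩ := h1.bound
  refine ⟨fun a => b (a, 0) + 1, by fun_prop, fun a => ?_⟩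
  beta_reduce
  have h5 := h2 a 0
  have h6 := h4 (a, 0)
  have := abs_add_le (F a - f (a, 0)) (f (a, 0))
  rw [sub_add_cancel] at this
  push_cast at h5 ⊢
  linarith

lemma mul_approx {x y x' y' : ℝ} {b c n : ℕ} (hx : |x| ≤ b) (hy : |y| ≤ c)
    (h1 : |x - x'| ≤ 1 / (((b + c + 1) * (n + 1) : ℕ) + 1))
    (h2 : |y - y'| ≤ 1 / (((b + c + 1) * (n + 1) : ℕ) + 1)) :
    |x * y - x' * y'| ≤ 1 / (n + 1) := by
  obtain ⟨e, he⟩ : ∃ e : ℝ, e = 1 / (((b + c + 1) * (n + 1) : ℕ) + 1) := ⟨_, rfl⟩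
  rw [← he] at h1 h2
  have he0 : 0 ≤ e := (abs_nonneg _).trans h1
  have he1 : e ≤ 1 := by
    rw [he, div_le_one (by positivity)]; exact le_add_of_nonneg_left (by positivity)
  have h3 : |y'| ≤ c + 1 := by
    have := abs_sub_abs_le_abs_sub y' y
    rw [abs_sub_comm] at this; linarith
  have h4 : x * y - x' * y' = x * (y - y') + (x - x') * y' := by ring
  rw [h4]
  refine (abs_add_le _ _).trans ?_
  rw [abs_mul, abs_mul]
  have h5 := mul_le_mul hx h2 (abs_nonneg _) (Nat.cast_nonneg _)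
  have h6 := mul_le_mul h1 h3 (abs_nonneg _) he0
  have h7 : (b + c + 1) * e ≤ 1 / (n + 1) := by
    rw [he, mul_one_div, div_le_div_iff₀ (by positivity) (by positivity)]
    push_cast; linarith
  linarith

@[fun_prop] theorem PR.mul {F G : A → ℝ} (hf : PR F) (hg : PR G) : PR (fun a => F a * G a) := by
  obtain ⟨b, hb, hb'⟩ := hf.bound
  obtain ⟨c, hc, hc'⟩ := hg.bound
  obtain ⟨f, h1, h2⟩ := hf
  obtain ⟨g, h3, h4⟩ := hg
  exact ⟨fun p => f (p.1, (b p.1 + c p.1 + 1) * (p.2 + 1)) * g (p.1, (b p.1 + c p.1 + 1) * (p.2 + 1)),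
    by fun_prop, fun a n => mul_approx (hb' a) (hc' a) (h2 _ _) (h4 _ _)⟩

theorem PR.sum {F : A → ℕ → ℝ} {N : A → ℕ} (hf : PR fun p : A × ℕ => F p.1 p.2) (hn : Primrec N) :
    PR (fun a => ∑ i ∈ range (N a), F a i) := by
  obtain ⟨f, h1, h2⟩ := hf
  refine ⟨fun p => ∑ i ∈ range (N p.1), f ((p.1, i), N p.1 * (p.2 + 1)),
    ER.sum (F := fun (p : A × ℕ) i => f ((p.1, i), N p.1 * (p.2 + 1)))
      (n := fun p => N p.1) (by fun_prop) (by fun_prop),
    fun a n => ?_⟩
  beta_reduce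
  rw [← sum_sub_distrib]
  refine (abs_sum_le_sum_abs _ _).trans ((sum_le_card_nsmul _ _ _ fun i _ => h2 (a, i) _).trans ?_)
  rw [card_range, nsmul_eq_mul, mul_one_div, div_le_div_iff₀ (by positivity) (by positivity)]
  push_cast; linarith

@[fun_prop] theorem PR.ite {c : A → Prop} [DecidablePred c] {F G : A → ℝ} (hc : PrimrecPred c)
    (hf : PR F) (hg : PR G) : PR (fun a => if c a then F a else G a) := by
  obtain ⟨f, h1, h2⟩ := hf
  obtain ⟨g, h3, h4⟩ := hg
  exact ⟨fun p => if c p.1 then f p else g p, by fun_prop, fun a n => by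
    beta_reduce; split_ifs; exacts [h2 _ _, h4 _ _]⟩

theorem PR.exp {F : A → ℝ} (hf : ER F) : PR (fun a => Real.exp (F a)) := by
  obtain ⟨b, hb, hb'⟩ := hf.bound
  refine ⟨fun p => ∑ i ∈ range (4 * b p.1 + p.2 + 2), F p.1 ^ i / (i.factorial : ℝ),
    ER.sum (F := fun (p : A × ℕ) i => F p.1 ^ i / (i.factorial : ℝ))
      (n := fun p => 4 * b p.1 + p.2 + 2) (ER.div (ER.pow (hf.comp (by fun_prop)) (by fun_prop))
        (ER.nat (by fun_prop))) (by fun_prop),
    fun a n => ?_⟩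
  beta_reduce
  obtain ⟨m, hm⟩ : ∃ m, m = 4 * b a + n + 2 := ⟨_, rfl⟩
  simp only [← hm]
  have h1 := Complex.exp_bound' (x := (F a : ℂ)) (n := m) (by
    rw [Complex.norm_real, Real.norm_eq_abs, div_le_iff₀ (by positivity), hm]
    have := hb' a
    push_cast
    linarith [(Nat.cast_nonneg n : (0 : ℝ) ≤ n), (Nat.cast_nonneg (b a) : (0 : ℝ) ≤ b a)])
  rw [Complex.norm_real, Real.norm_eq_abs] at h1
  have h2 : |Real.exp (F a) - ∑ i ∈ range m, F a ^ i / (i.factorial : ℝ)| ≤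
      |F a| ^ m / m.factorial * 2 := by
    convert h1 using 1
    rw [← Real.norm_eq_abs, ← Complex.norm_real]; push_cast; rfl
  refine h2.trans ?_
  have h3 := Real.pow_div_factorial_le_exp (2 * b a : ℝ) (by positivity) m
  have h4 : Real.exp (2 * b a) ≤ 2 ^ (4 * b a) := by
    rw [mul_comm, Real.exp_nat_mul, mul_comm 4, pow_mul']
    refine pow_le_pow_left₀ (Real.exp_pos _).le ?_ _
    rw [show Real.exp 2 = Real.exp 1 * Real.exp 1 by rw [← Real.exp_add]; norm_num]
    nlinarith [Real.exp_one_lt_d9, Real.exp_pos 1]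
  have h5 : |F a| ^ m ≤ (b a : ℝ) ^ m := pow_le_pow_left₀ (abs_nonneg _) (hb' a) _
  have h6 : (n : ℝ) + 1 ≤ 2 ^ n := by exact_mod_cast Nat.lt_two_pow_self
  have h7 : (b a : ℝ) ^ m / m.factorial * (2 ^ (4 * b a) * (2 ^ n * 4)) ≤ 2 ^ (4 * b a) := by
    refine le_trans (le_of_eq ?_) (h3.trans h4)
    rw [mul_pow, hm]; ring
  rw [le_div_iff₀ (by positivity)]
  have h8 : (b a : ℝ) ^ m / m.factorial * (2 ^ n * 4) ≤ 1 := by
    refine le_of_mul_le_mul_left ?_ (show (0 : ℝ) < 2 ^ (4 * b a) by positivity)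
    linarith
  calc _ ≤ (b a : ℝ) ^ m / m.factorial * 2 * 2 ^ n := by gcongr
    _ ≤ _ := by
      have : 0 ≤ (b a : ℝ) ^ m / m.factorial * 2 ^ n := by positivity
      linarith

theorem PR.inv_pow {F : A → ℝ} {k : A → ℕ} (hf : PR F) (h : ∀ a, 1 ≤ F a) (hk : Primrec k) :
    PR (fun a => (F a)⁻¹ ^ k a) := by
  classical
  obtain ⟨f, h1, h2⟩ := hf
  have h3 : ER fun p : A × ℕ => if f p ≤ 1 then 1 else f p := ER.ite (h1.le ER.one) ER.one h1
  refine ⟨fun p => ((fun p : A × ℕ => if f p ≤ 1 then 1 else f p) (p.1, k p.1 * (p.2 + 1)))⁻¹ ^ k p.1,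
    ER.pow (ER.inv (h3.comp (by fun_prop))) (by fun_prop), fun a n => ?_⟩
  beta_reduce
  obtain ⟨y, hy⟩ : ∃ y, y = if f (a, k a * (n + 1)) ≤ 1 then 1 else f (a, k a * (n + 1)) := ⟨_, rfl⟩
  simp only [← hy]
  have h4 := h a
  have h5 : 1 ≤ y := by rw [hy]; split_ifs <;> linarith
  have h6 : |F a - y| ≤ 1 / ((k a * (n + 1) : ℕ) + 1) := by
    refine le_trans ?_ (h2 a _)
    rw [hy]; split_ifs
    · rw [abs_of_nonneg (by linarith), abs_of_nonneg (by linarith)]; linarith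
    · exact le_rfl
  have h7 : |(F a)⁻¹ - y⁻¹| ≤ |F a - y| := by
    rw [inv_sub_inv (by linarith) (by linarith), abs_div, abs_sub_comm]
    refine div_le_self (abs_nonneg _) ?_
    rw [abs_of_nonneg (by positivity)]; nlinarith
  refine (abs_pow_sub_pow_le _ _ _).trans ?_
  have h8 : max |(F a)⁻¹| |y⁻¹| ^ (k a - 1) ≤ 1 := by
    refine pow_le_one₀ (by positivity) (max_le ?_ ?_)
    · rw [abs_of_nonneg (by positivity)]; exact inv_le_one_of_one_le₀ h4
    · rw [abs_of_nonneg (by positivity)]; exact inv_le_one_of_one_le₀ h5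
  calc _ ≤ 1 / (((k a * (n + 1) : ℕ) : ℝ) + 1) * k a * 1 := by gcongr; exact h7.trans h6
    _ ≤ _ := by
      rw [mul_one, one_div_mul_eq_div, div_le_div_iff₀ (by positivity) (by positivity)]
      push_cast; linarith

end
end Vale.Agent.P113
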