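import Vale.Agent.P113.Geo

namespace Vale.Agent.P113
open Finset

lemma inn_wd (M : Machine) (W : List ℕ) (α β : ℝ) {t : ℝ} (h : t ∈ Set.Icc (0 : ℝ) 1) :
    Inn (wd M W α β) (val M W + cc M ^ W.length * t) := by
  have := pow_pos (cc_pos M) W.length
  refine ⟨this, ?_, ?_⟩ <;> simp only [wd] <;> nlinarith [h.1, h.2]

lemma outt_wd {M : Machine} {W X : List ℕ} (α β : ℝ) (hW : Dig M W) (hX : Dig M X)
    (h : ¬ pre W X) : Outt (wd M W α β) (val M X) := by
  have := pow_pos (cc_pos M) W.length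
  exact ⟨this, le_add_of_nonneg_right this.le, not_pre hW hX h⟩

lemma SS_pos (M : Machine) : 0 < SS M := by have := KK_pos M; unfold SS; positivity

lemma DD_pos' (M : Machine) : 0 < DD M := by have := KK_pos M; unfold DD; omega

lemma NN_pos (M : Machine) : (1 : ℝ) ≤ NN M := by
  have := SS_pos M
  have := DD_pos' M
  exact_mod_cast (show 0 < NN M by unfold NN; positivity)

lemma eps_pos (M : Machine) : 0 < eps M := by have := NN_pos M; unfold eps; positivity

lemma eps_mul (M : Machine) : 2 * eps M * NN M = 1 := by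
  have := NN_pos M; unfold eps; field_simp

lemma eps_j {M : Machine} {j : ℕ} (h : j < NN M) : 0 ≤ 2 * eps M * j ∧
    2 * eps M * j + 2 * eps M ≤ 1 := by
  have h1 : (j : ℝ) + 1 ≤ NN M := by exact_mod_cast h
  have := eps_pos M
  exact ⟨by positivity, by nlinarith [eps_mul M]⟩

lemma inn_sl (M : Machine) (j : ℕ) (α β : ℝ) {t : ℝ} (h : t ∈ Set.Icc (0 : ℝ) 1) :
    Inn (sl M j α β) (hh M j + eps M * t) := by
  have := eps_pos M
  refine ⟨this, ?_, ?_⟩ <;> simp only [sl] <;> nlinarith [h.1, h.2]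

lemma outt_sl {M : Machine} {j j0 : ℕ} (α β : ℝ) {t : ℝ} (h : t ∈ Set.Icc (0 : ℝ) 1)
    (h0 : j0 < NN M) (hj : j < NN M) (hne : j ≠ j0) : Outt (sl M j α β) (hh M j0 + eps M * t) := by
  have e := eps_pos M
  refine ⟨e, le_add_of_nonneg_right e.le, ?_⟩
  have a1 := eps_j h0
  have a2 := eps_j hj
  have a3 : 0 ≤ eps M * t := mul_nonneg e.le h.1
  have a4 : eps M * t ≤ eps M := by nlinarith [h.2]
  have a5 : 2 * eps M * j + 2 * eps M ≤ 2 * eps M * j0 ∨
      2 * eps M * j0 + 2 * eps M ≤ 2 * eps M * j := by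
    rcases lt_or_gt_of_ne hne with h | h
    · have : (j : ℝ) + 1 ≤ j0 := by exact_mod_cast h
      left; nlinarith
    · have : (j0 : ℝ) + 1 ≤ j := by exact_mod_cast h
      right; nlinarith
  simp only [sl, hh]
  split_ifs
  · rcases a5 with h | h
    · right; linarith
    · left; linarith
  · right; linarith
  · left; linarith
  · rcases a5 with h | h
    · right; linarith
    · left; linarith

lemma j_eq (M : Machine) (j : ℕ) : j = ja M j + SS M * (jl M j + DD M * jr M j) := by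
  simp only [ja, jl, jr, Nat.mod_add_div]

lemma j_lt {M : Machine} {j : ℕ} (h : j < NN M) : ja M j < SS M ∧ jl M j < DD M ∧ jr M j < DD M := by
  refine ⟨Nat.mod_lt _ (SS_pos M), Nat.mod_lt _ (DD_pos' M), ?_⟩
  rw [jr, Nat.div_div_eq_div_mul, Nat.div_lt_iff_lt_mul (Nat.mul_pos (SS_pos M) (DD_pos' M)), mul_comm]
  exact h

lemma j_exists {M : Machine} {a l r : ℕ} (ha : a < SS M) (hl : l < DD M) (hr : r < DD M) :
    ∃ j < NN M, ja M j = a ∧ jl M j = l ∧ jr M j = r := by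
  have h1 : (a + SS M * (l + DD M * r)) / SS M = l + DD M * r := by
    rw [Nat.add_mul_div_left _ _ (SS_pos M), Nat.div_eq_of_lt ha, zero_add]
  refine ⟨a + SS M * (l + DD M * r), ?_, ?_, ?_, ?_⟩
  · have h2 : l + DD M * r + 1 ≤ DD M * DD M := by nlinarith
    have := Nat.mul_le_mul_left (SS M) h2
    rw [NN, mul_assoc]; rw [mul_add_one] at this; omega
  · rw [ja, Nat.add_mul_mod_self_left, Nat.mod_eq_of_lt ha]
  · rw [jl, h1, Nat.add_mul_mod_self_left, Nat.mod_eq_of_lt hl]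
  · rw [jr, h1, Nat.add_mul_div_left _ _ (DD_pos' M), Nat.div_eq_of_lt hl, zero_add]

theorem cycle {M : Machine} {s : St} (h : Good M s) {P : ℕ → R3}
    (hP : ∀ r, 1 ≤ r → r < 10 → P (r + 1) = P r + WW M r (P r))
    (h1 : P 1 = emb (val M s.1) (val M s.2) 0) :
    P 10 = emb (val M (nxt M s).1) (val M (nxt M s).2) 0 ∧
    (hlt M (s.1.headD 0) → P 2 2 ∈ Set.Ioo (7 / 16 : ℝ) (11 / 16)) ∧
    (¬ hlt M (s.1.headD 0) → ∀ r, 1 ≤ r → r ≤ 10 → P r 2 ∈ Set.Icc (1 / 4 : ℝ) (3 / 8)) := by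
  obtain ⟨j0, hj, ea, el, er⟩ := j_exists h.1 h.2.1.tail.head h.2.2.head
  obtain ⟨tx, htx⟩ : ∃ t, t = val M s.1.tail.tail := ⟨_, rfl⟩
  obtain ⟨ty, hty⟩ : ∃ t, t = val M s.2.tail := ⟨_, rfl⟩
  have bx : tx ∈ Set.Icc (0 : ℝ) 1 := htx ▸ ⟨val_nonneg _ _, val_le h.2.1.tail.tail⟩
  have bY : ty ∈ Set.Icc (0 : ℝ) 1 := hty ▸ ⟨val_nonneg _ _, val_le h.2.2.tail⟩
  have nx : nxt M s = (Wx M j0 ++ s.1.tail.tail, Wy M j0 ++ s.2.tail) := by
    simp only [nxt, Wx, Wy, ea, el, er]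
  have x0 : val M s.1 = val M [ja M j0, jl M j0] + cc M ^ [ja M j0, jl M j0].length * tx := by
    rw [htx, ← val_append, ea, el, val_norm M s.1]
    simp only [List.cons_append, List.nil_append, val]
    rw [val_norm M s.1.tail, val]
  have y0 : val M s.2 = val M [jr M j0] + cc M ^ [jr M j0].length * ty := by
    rw [hty, ← val_append, er, val_norm M s.2]; rfl
  have x1 : val M (nxt M s).1 = val M (Wx M j0) + cc M ^ (Wx M j0).length * tx := by
    rw [nx, htx, val_append]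
  have y1 : val M (nxt M s).2 = val M (Wy M j0) + cc M ^ (Wy M j0).length * ty := by
    rw [nx, hty, val_append]
  have r3 : ∀ {L}, Dig M L → val M L ∈ Set.Icc (0 : ℝ) 3 := fun h =>
    ⟨val_nonneg _ _, (val_le h).trans (by norm_num)⟩
  have e := eps_pos M
  have c := cc_pos M
  have rz : ∀ {t}, t ∈ Set.Icc (0 : ℝ) 1 → (hlt M (s.1.headD 0) →
      hh M j0 + eps M * t ∈ Set.Icc (2 : ℝ) 3) ∧ (¬ hlt M (s.1.headD 0) →
      hh M j0 + eps M * t ∈ Set.Icc (0 : ℝ) 1) := fun {t} ht => by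
    have a1 := eps_j hj
    have a3 : 0 ≤ eps M * t := mul_nonneg e.le ht.1
    have a4 : eps M * t ≤ eps M := by nlinarith [ht.2]
    rw [← ea, hh, hlt]
    exact ⟨fun h => by rw [if_pos h]; constructor <;> linarith,
      fun h => by rw [if_neg h]; constructor <;> linarith⟩
  have rz3 : ∀ {t}, t ∈ Set.Icc (0 : ℝ) 1 → hh M j0 + eps M * t ∈ Set.Icc (0 : ℝ) 3 := fun ht => by
    by_cases h : hlt M (s.1.headD 0)
    · exact ⟨by linarith [((rz ht).1 h).1], ((rz ht).1 h).2⟩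
    · exact ⟨((rz ht).2 h).1, by linarith [((rz ht).2 h).2]⟩
  have iw : ∀ {ξ : ℝ}, ξ ∈ Set.Icc (0 : ℝ) 3 → Inn (wh 1) ξ := fun h => ⟨one_pos, h.1, h.2⟩
  have gx := r3 h.2.1
  have gy := r3 h.2.2
  have gX := r3 h.nxt.2.1
  have gY := r3 h.nxt.2.2
  have dg : ∀ {j}, j < NN M → Dig M [ja M j, jl M j] ∧ Dig M [jr M j] := fun hj => by
    obtain ⟨a, b, c⟩ := j_lt hj
    unfold Dig DD at *
    simp only [List.mem_cons, List.not_mem_nil, or_false, forall_eq_or_imp, forall_eq]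
    omega
  have p2 : P 2 = emb (val M s.1) (val M s.2) (hh M j0 + eps M * tx) := by
    rw [hP 1 (by norm_num) (by norm_num), h1]
    refine phaseZ rfl hj gx gy (x0 ▸ inn_wd _ _ _ _ bx) (y0 ▸ inn_wd _ _ _ _ bY)
      (fun j hj' hne => ?_) ?_
    · by_contra hc
      push Not at hc
      have a1 := Classical.not_not.1 fun h' => hc.1 (outt_wd _ _ (dg hj').1 h.2.1 h')
      have a2 := Classical.not_not.1 fun h' => hc.2 (outt_wd _ _ (dg hj').2 h.2.2 h')
      simp only [pre] at a1 a2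
      exact hne (by rw [j_eq M j, j_eq M j0, ea, el, er, a1.1, a1.2.1, a2.1])
    · rw [x0]; simp [prm, wd, Prm.aff]; field_simp
  have p3 : P 3 = emb (hh M j0 + eps M * tx) (val M s.2) (hh M j0 + eps M * tx) := by
    rw [hP 2 (by norm_num) (by norm_num), p2]
    refine phaseX rfl hj gy (rz3 bx) (iw gy) (inn_sl _ _ _ _ bx)
      (fun j a b => outt_sl _ _ bx hj a b) ?_
    rw [x0]; simp [prm, sl, wh, Prm.aff]; field_simp; ring
  have p4 : P 4 = emb (hh M j0 + eps M * tx) (val M s.2) 0 := by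
    rw [hP 3 (by norm_num) (by norm_num), p3]
    refine phaseZ rfl hj (rz3 bx) gy (inn_sl _ _ _ _ bx) (iw gy)
      (fun j a b => Or.inl (outt_sl _ _ bx hj a b)) ?_
    simp [prm, sl, wh, Prm.aff]; ring
  have p5 : P 5 = emb (hh M j0 + eps M * tx) (val M s.2) (hh M j0 + eps M * ty) := by
    rw [hP 4 (by norm_num) (by norm_num), p4]
    refine phaseZ rfl hj (rz3 bx) gy (inn_sl _ _ _ _ bx) (y0 ▸ inn_wd _ _ _ _ bY)
      (fun j a b => Or.inl (outt_sl _ _ bx hj a b)) ?_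
    rw [y0]; simp [prm, sl, wd, Prm.aff]; field_simp
  have p6 : P 6 = emb (hh M j0 + eps M * tx) (val M (nxt M s).2) (hh M j0 + eps M * ty) := by
    rw [hP 5 (by norm_num) (by norm_num), p5]
    refine phaseY rfl hj (rz3 bx) (rz3 bY) (iw (rz3 bx)) (inn_sl _ _ _ _ bY)
      (fun j a b => outt_sl _ _ bY hj a b) ?_
    rw [y0, y1]; simp [prm, sl, wh, Prm.aff]; field_simp; ring
  have p7 : P 7 = emb (hh M j0 + eps M * tx) (val M (nxt M s).2) 0 := by
    rw [hP 6 (by norm_num) (by norm_num), p6]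
    refine phaseZ rfl hj (rz3 bx) gY (inn_sl _ _ _ _ bx) (y1 ▸ inn_wd _ _ _ _ bY)
      (fun j a b => Or.inl (outt_sl _ _ bx hj a b)) ?_
    rw [y1]; simp [prm, sl, wd, Prm.aff]; field_simp; ring
  have p8 : P 8 = emb (hh M j0 + eps M * tx) (val M (nxt M s).2) (hh M j0 + eps M * tx) := by
    rw [hP 7 (by norm_num) (by norm_num), p7]
    refine phaseZ rfl hj (rz3 bx) gY (inn_sl _ _ _ _ bx) (iw gY)
      (fun j a b => Or.inl (outt_sl _ _ bx hj a b)) ?_
    simp [prm, sl, wh, Prm.aff]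
  have p9 : P 9 = emb (val M (nxt M s).1) (val M (nxt M s).2) (hh M j0 + eps M * tx) := by
    rw [hP 8 (by norm_num) (by norm_num), p8]
    refine phaseX rfl hj gY (rz3 bx) (iw gY) (inn_sl _ _ _ _ bx)
      (fun j a b => outt_sl _ _ bx hj a b) ?_
    rw [x1]; simp [prm, sl, wh, Prm.aff]; field_simp; ring
  have p10 : P 10 = emb (val M (nxt M s).1) (val M (nxt M s).2) 0 := by
    rw [hP 9 (by norm_num) (by norm_num), p9]
    refine phaseZ rfl hj gX gY (x1 ▸ inn_wd _ _ _ _ bx) (y1 ▸ inn_wd _ _ _ _ bY)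
      (fun j hj' hne => ?_) ?_
    · by_contra hc
      push Not at hc
      obtain ⟨b1, b2, b3⟩ := j_lt hj'
      obtain ⟨b4, b5, -⟩ := out_good b1 b2 b3
      have a1 := Classical.not_not.1 fun h' => hc.1 (outt_wd _ _ b4 h.nxt.2.1 h')
      have a2 := Classical.not_not.1 fun h' => hc.2 (outt_wd _ _ b5 h.nxt.2.2 h')
      rw [nx] at a1 a2
      obtain ⟨c1, c2, c3⟩ := out_inj a1 a2 (pre_append _ _) (pre_append _ _)
      exact hne (by rw [j_eq M j, j_eq M j0, c1, c2, c3])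
    · rw [x1]; simp [prm, wd, Prm.aff]; field_simp; ring
  refine ⟨p10, fun H => ?_, fun H r a b => ?_⟩
  · have := (rz bx).1 H
    rw [p2]; simp only [emb, Matrix.cons_val]
    constructor <;> linarith [this.1, this.2]
  · have a1 := (rz bx).2 H
    have a2 := (rz bY).2 H
    interval_cases r <;> simp only [h1, p2, p3, p4, p5, p6, p7, p8, p9, p10, emb, Matrix.cons_val] <;>
      constructor <;> linarith [a1.1, a1.2, a2.1, a2.2]

end Vale.Agent.P113
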