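import Mathlib

namespace Vale.Agent.P113

/-- Space: functions on the flat torus are the 1-periodic functions on `R3`. -/
abbrev R3 := Fin 3 → ℝ

/-- coordinate unit vector -/
def ee (i : Fin 3) : R3 := Pi.single i 1

/-- invariance under the integer lattice -/
def Per {α : Type} (g : R3 → α) : Prop := ∀ x i, g (x + ee i) = g x

/-- spatial derivative of `g` in the direction `i` -/
noncomputable def dx {E : Type} [NormedAddCommGroup E] [NormedSpace ℝ E] (i : Fin 3) (g : R3 → E)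
    (x : R3) : E := fderiv ℝ g x (ee i)

/-- `(u, p)` is a classical solution on `[0, T]` of the forced Navier-Stokes system on the torus,
starting from rest. -/
structure IsSol (ν : ℝ) (f : ℝ → R3 → R3) (T : ℝ) (u : ℝ → R3 → R3) (p : ℝ → R3 → ℝ) :
    Prop where
  per_u : ∀ t ∈ Set.Icc 0 T, Per (u t)
  per_p : ∀ t ∈ Set.Icc 0 T, Per (p t)
  space_u : ∀ t ∈ Set.Icc 0 T, ContDiff ℝ 2 (u t)
  space_p : ∀ t ∈ Set.Icc 0 T, ContDiff ℝ 1 (p t)
  cont_u : ContinuousOn (fun q : ℝ × R3 => u q.1 q.2) (Set.Icc 0 T ×ˢ Set.univ)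
  cont_du : ∀ i, ContinuousOn (fun q : ℝ × R3 => dx i (u q.1) q.2) (Set.Icc 0 T ×ˢ Set.univ)
  cont_ddu : ∀ i j, ContinuousOn (fun q : ℝ × R3 => dx i (dx j (u q.1)) q.2)
    (Set.Icc 0 T ×ˢ Set.univ)
  cont_p : ContinuousOn (fun q : ℝ × R3 => p q.1 q.2) (Set.Icc 0 T ×ˢ Set.univ)
  cont_dp : ∀ i, ContinuousOn (fun q : ℝ × R3 => dx i (p q.1) q.2) (Set.Icc 0 T ×ˢ Set.univ)
  mean_p : ∀ t ∈ Set.Icc 0 T, ∫ x in Set.Icc (0 : R3) 1, p t x = 0
  eqn : ∃ ut : ℝ → R3 → R3,
    ContinuousOn (fun q : ℝ × R3 => ut q.1 q.2) (Set.Icc 0 T ×ˢ Set.univ) ∧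
    ∀ t ∈ Set.Icc 0 T, ∀ x, HasDerivWithinAt (fun s => u s x) (ut t x) (Set.Icc 0 T) t ∧
      ∀ i, ut t x i + ∑ j, u t x j * dx j (u t) x i =
        -dx i (p t) x + ν * ∑ j, dx j (dx j (u t)) x i + f t x i
  div : ∀ t ∈ Set.Icc 0 T, ∀ x, ∑ i, dx i (u t) x i = 0
  init : ∀ x, u 0 x = 0

/-- `X` is a trajectory of `u` from `a` (lifted to `R3`). -/
def Traj (u : ℝ → R3 → R3) (a : R3) (X : ℝ → R3) : Prop :=
  X 0 = a ∧ ∀ t, 0 ≤ t → HasDerivWithinAt X (u t (X t)) (Set.Ici 0) t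

/-- A machine `(m, k, table, halting)`: states `0..m` (start state `0`), symbols `0..k`
(blank `0`), the transition table listed state by state, and the list of halting states. -/
abbrev Machine := ℕ × ℕ × List (ℕ × ℕ × ℕ) × List ℕ

/-- state, tape, head position -/
abbrev Config := ℕ × (ℤ → ℕ) × ℤ

/-- The rule for state `q` and scanned symbol `s`: new state, written symbol and move
(`0` left, `1` stay, `2` right). -/
def rule (M : Machine) (q s : ℕ) : ℕ × ℕ × ℕ :=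
  let r := M.2.2.1.getD (q * (M.2.1 + 1) + s) (0, 0, 0)
  (r.1 % (M.1 + 1), r.2.1 % (M.2.1 + 1), r.2.2 % 3)

def step (M : Machine) (c : Config) : Config :=
  let r := rule M c.1 (c.2.1 c.2.2)
  (r.1, Function.update c.2.1 c.2.2 r.2.1, c.2.2 + r.2.2 - 1)

/-- start state, the word on cells `0, 1, ...` of a blank tape, head at cell `0` -/
def start (M : Machine) (w : List ℕ) : Config :=
  (0, fun i => if 0 ≤ i then w.getD i.toNat 0 % (M.2.1 + 1) else 0, 0)

def Halts (M : Machine) (w : List ℕ) : Prop := ∃ n, ((step M)^[n] (start M w)).1 ∈ M.2.2.2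

/-- code of the rational number `(a - b) / (c + 1)` -/
abbrev Q3 := ℕ × ℕ × ℕ

noncomputable def rat (r : Q3) : ℝ := ((r.1 : ℝ) - r.2.1) / ((r.2.2 : ℝ) + 1)

def CompReal (ν : ℝ) : Prop := ∃ a : ℕ → Q3, Computable a ∧ ∀ n, |ν - rat (a n)| ≤ 1 / (n + 1)

/-- the four coordinate directions of space-time, time first -/
def dir (i : Fin 4) : ℝ × R3 := Fin.cases (1, 0) (fun j => (0, ee j)) i

/-- mixed derivative along a list of directions -/
noncomputable def mixed (l : List (Fin 4)) (F : ℝ × R3 → ℝ) : ℝ × R3 → ℝ :=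
  l.foldr (fun i G q => fderiv ℝ G q (dir i)) F

/-- component, directions, rational point `(t, x, y, z)`, accuracy `1 / (n + 1)` -/
abbrev Query := Fin 3 × List (Fin 4) × (Q3 × Q3 × Q3 × Q3) × ℕ

noncomputable def point (r : Q3 × Q3 × Q3 × Q3) : ℝ × R3 :=
  (rat r.1, ![rat r.2.1, rat r.2.2.1, rat r.2.2.2])

/-- The program `c` returns every mixed derivative of `f` at every rational point to every
accuracy. -/
def Computes (c : Nat.Partrec.Code) (f : ℝ → R3 → R3) : Prop :=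
  ∀ s : Query, ∃ r : Q3, Encodable.encode r ∈ c.eval (Encodable.encode s) ∧
    |mixed s.2.1 (fun q => f q.1 q.2 s.1) (point s.2.2.1) - rat r| ≤ 1 / (s.2.2.2 + 1)

end Vale.Agent.P113
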