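import Vale.Agent.P113.Cycle

namespace Vale.Agent.P113
open Finset Filter Topology
open scoped ContDiff

variable {A : Type} [Primcodable A]

def EP (p : A → Prm) : Prop := (ER fun a => (p a).lo) ∧ (ER fun a => (p a).hi) ∧
  (ER fun a => (p a).η) ∧ (ER fun a => (p a).α) ∧ ER fun a => (p a).β

theorem EP.bump {p : A → Prm} (h : EP p) : E1 fun a => bump (p a) := by
  obtain ⟨h1, h2, h3, h4, h5⟩ := h
  exact ((E1.sigma.affine h3.inv (ER.one.sub (h3.inv.mul h1))).sub
    (E1.sigma.affine h3.inv (h3.inv.mul h2).neg)).mul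
    ((E1.const h4).add ((E1.const h5).mul (E1.id.sub (E1.const h1))))

theorem ep_wh {α : ℝ} (h : ER fun _ : A => α) : EP fun _ : A => wh α :=
  ⟨ER.zero, ER.ofNat 3, ER.one, h, ER.zero⟩

theorem EP.pb {p : A → Prm} (h : EP p) : E1 fun a => pb (p a) := by
  have a1 : ER fun _ : A => (8 : ℝ) := ER.ofNat 8
  have a2 : ER fun _ : A => (-2 : ℝ) := (ER.ofNat 2).neg
  refine (((ep_wh ER.one).bump.affine a1 a2).mul (h.bump.affine a1 a2)).per
    (fun a s hs => ?_) fun a s hs => ?_
  · rw [Outt.bump (p := wh 1) ⟨one_pos, by simp [wh], Or.inl (by simp only [wh]; linarith)⟩, zero_mul]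
  · rw [Outt.bump (p := wh 1) ⟨one_pos, by simp [wh], Or.inr (by simp only [wh]; linarith)⟩, zero_mul]

section
variable {M : A → Machine} (hM : Primrec M)
include hM

@[fun_prop] lemma pr_KK : Primrec fun a => KK (M a) := by unfold KK; fun_prop
@[fun_prop] lemma pr_SS : Primrec fun a => SS (M a) := by unfold SS; fun_prop
@[fun_prop] lemma pr_DD : Primrec fun a => DD (M a) := by unfold DD; fun_prop
@[fun_prop] lemma pr_NN : Primrec fun a => NN (M a) := by unfold NN; fun_prop
@[fun_prop] lemma er_cc : ER fun a => cc (M a) := ((ER.ofNat 2).mul (ER.nat (pr_DD hM))).inv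
@[fun_prop] lemma er_eps : ER fun a => eps (M a) := ((ER.ofNat 2).mul (ER.nat (pr_NN hM))).inv

@[fun_prop] lemma pr_rule {q s : A → ℕ} (hq : Primrec q) (hs : Primrec s) :
    Primrec fun a => rule (M a) (q a) (s a) := by
  have : Primrec fun a => (M a).2.2.1.getD (q a * ((M a).2.1 + 1) + s a) (0, 0, 0) := by fun_prop
  unfold rule; fun_prop

lemma pr_out {x l r : A → ℕ} (hx : Primrec x) (hl : Primrec l) (hr : Primrec r) :
    Primrec fun a => out (M a) (x a) (l a) (r a) := by
  have h1 : Primrec fun a => rule (M a) (x a / 4 / KK (M a)) (x a / 4 % KK (M a)) := by fun_prop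
  have h2 := pr_KK hM
  unfold out
  generalize_proofs
  refine pr_ite (by fun_prop) (pr_ite (by fun_prop) ?_ (pr_ite (by fun_prop) ?_ ?_))
    (pr_ite (by fun_prop) (pr_ite (by fun_prop) ?_ ?_) (pr_ite (by fun_prop) ?_ ?_)) <;> fun_prop

lemma er_val {W : A → List ℕ} (hW : Primrec W) : ER fun a => val (M a) (W a) := by
  refine (ER.sum (F := fun a i => 2 * ((W a).getD i 0 : ℕ) * cc (M a) ^ (i + 1))
    (n := fun a => (W a).length) (((ER.ofNat 2).mul (ER.nat (by fun_prop))).mul
      ((er_cc (hM.comp Primrec.fst)).pow (by fun_prop))) (by fun_prop)).of_eq fun a => ?_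
  induction W a with
  | nil => simp [val]
  | cons d L ih =>
    rw [List.length_cons, sum_range_succ', val, ← ih, add_mul, sum_mul, add_comm]
    simp only [List.getD_cons_succ, List.getD_cons_zero, zero_add, pow_one, pow_succ _ (_ + 1),
      mul_assoc]

lemma ep_wd {W : A → List ℕ} (hW : Primrec W) {α β : A → ℝ} (hα : ER α) (hβ : ER β) :
    EP fun a => wd (M a) (W a) (α a) (β a) :=
  ⟨er_val hM hW, (er_val hM hW).add ((er_cc hM).pow (pr_length hW)), (er_cc hM).pow (pr_length hW),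
    hα, hβ⟩

variable {j : A → ℕ} (hj : Primrec j)
include hj

@[fun_prop] lemma pr_ja : Primrec fun a => ja (M a) (j a) := by unfold ja; fun_prop
@[fun_prop] lemma pr_jl : Primrec fun a => jl (M a) (j a) := by unfold jl; fun_prop
@[fun_prop] lemma pr_jr : Primrec fun a => jr (M a) (j a) := by unfold jr; fun_prop
lemma pr_Wx : Primrec fun a => Wx (M a) (j a) :=
  pr_fst (pr_out hM (pr_ja hM hj) (pr_jl hM hj) (pr_jr hM hj))
lemma pr_Wy : Primrec fun a => Wy (M a) (j a) :=
  pr_snd (pr_out hM (pr_ja hM hj) (pr_jl hM hj) (pr_jr hM hj))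

lemma er_hh : ER fun a => hh (M a) (j a) :=
  (((ER.ofNat 2).mul (er_eps hM)).mul (ER.nat hj)).add
    (ER.ite (pr_mem (by fun_prop) (by fun_prop)) (ER.ofNat 2) ER.zero)

lemma ep_sl {α β : A → ℝ} (hα : ER α) (hβ : ER β) : EP fun a => sl (M a) (j a) (α a) (β a) :=
  ⟨er_hh hM hj, (er_hh hM hj).add (er_eps hM), er_eps hM, hα, hβ⟩

lemma ep_prm (r : ℕ) (i : Fin 3) : EP fun a => prm (M a) r (j a) i := by
  have c := er_cc hM
  have e := er_eps hM
  have h := er_hh hM hj
  have x := pr_Wx hM hj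
  have y := pr_Wy hM hj
  have w1 : Primrec fun a => [ja (M a) (j a), jl (M a) (j a)] := by fun_prop
  have w2 : Primrec fun a => [jr (M a) (j a)] := by fun_prop
  have c2 := c.pow (Primrec.const 2)
  have cx := c.pow (pr_length x)
  have cy := c.pow (pr_length y)
  have o : EP fun _ : A => wh 1 := ep_wh ER.one
  have z : EP fun _ : A => wh 0 := ep_wh ER.zero
  have s := ep_sl hM hj ER.one ER.zero
  unfold prm
  split <;> fin_cases i
  exacts [ep_wd hM w1 h (e.div c2), ep_wd hM w2 ER.one ER.zero, z,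
    z, o, ep_sl hM hj (h.sub (er_val hM w1)) (ER.one.sub (c2.div e)),
    ep_sl hM hj h.neg ER.one.neg, o, z,
    s, ep_wd hM w2 h (e.div c), z,
    o, z, ep_sl hM hj ((er_val hM y).sub (er_val hM w2)) ((cy.sub c).div e),
    s, ep_wd hM y h.neg (e.neg.div cy), z,
    ep_sl hM hj h ER.one, o, z,
    z, o, ep_sl hM hj ((er_val hM x).sub h) ((cx.div e).sub ER.one),
    ep_wd hM x h.neg (e.neg.div cx), ep_wd hM y ER.one ER.zero, z,
    z, z, z]

lemma e1_fac (r : ℕ) (i : Fin 3) : E1 fun a => fac (M a) r (j a) i := by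
  unfold fac
  split_ifs
  · exact E1.const ER.one
  · exact (ep_prm hM hj r i).pb

end

noncomputable def tau (r : ℕ) (t : ℝ) : ℝ := deriv th (10 * Int.fract (1 / 10 * t + 0) + -r)

lemma e1_tau {r : ℕ} (hr : r < 10) : E1 fun _ : A => tau r := by
  have : (r : ℝ) ≤ 9 := by exact_mod_cast Nat.lt_succ_iff.1 hr
  have h0 : (0 : ℝ) ≤ r := Nat.cast_nonneg r
  exact ((e1_th.deriv.affine (ER.ofNat 10) (ER.cst r).neg).per
    (fun _ s hs => dth_le (by linarith)) fun _ s hs => dth_ge (by linarith)).affine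
    (ER.one.div (ER.ofNat 10)) ER.zero

lemma tau_eq {r k : ℕ} {t : ℝ} (h1 : (k : ℝ) ≤ t) (h2 : t < k + 1) :
    tau r t = if r = k % 10 then deriv th (t - k) else 0 := by
  have hk : (k : ℝ) = 10 * (k / 10 : ℕ) + (k % 10 : ℕ) := by exact_mod_cast (Nat.div_add_mod k 10).symm
  have h3 : ((k % 10 : ℕ) : ℝ) ≤ 9 := by exact_mod_cast (show k % 10 ≤ 9 by omega)
  have h4 : (0 : ℝ) ≤ (k % 10 : ℕ) := Nat.cast_nonneg _
  have h5 : Int.fract (1 / 10 * t + 0) = 1 / 10 * t - (k / 10 : ℕ) :=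
    Int.fract_eq_iff.2 ⟨by linarith, by linarith, (k / 10 : ℕ), by rw [Int.cast_natCast]; ring⟩
  rw [tau, h5]
  split_ifs with h
  · congr 1; rw [h]; linarith
  · rcases lt_or_gt_of_ne h with h | h
    · have : (r : ℝ) + 1 ≤ (k % 10 : ℕ) := by exact_mod_cast h
      exact dth_ge (by linarith)
    · have : ((k % 10 : ℕ) : ℝ) + 1 ≤ r := by exact_mod_cast h
      exact dth_le (by linarith)

lemma tau_per (r : ℕ) (t : ℝ) : tau r (t + 10) = tau r t := by
  rw [tau, show 1 / 10 * (t + 10) + 0 = 1 / 10 * t + 0 + 1 by ring, Int.fract_add_one, tau]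

noncomputable def cw (M : Machine) (w : List ℕ) : R3 :=
  ![val M (init M w).1 / 8, val M (init M w).2 / 8, 0]

noncomputable def U2 (M : Machine) (i : Fin 3) (q : ℝ × R3) : ℝ :=
  ∑ r : Fin 10, tau r q.1 * WW M r q.2 i

noncomputable def UU (M : Machine) (w : List ℕ) (i : Fin 3) (q : ℝ × R3) : ℝ :=
  cw M w i * deriv th q.1 + U2 M i q

lemma e4_U2 (i : Fin 3) : E4 fun M : Machine => U2 M i := by
  refine E4.fsum univ (F := fun (r : Fin 10) M q => tau r q.1 * WW M r q.2 i) fun r => ?_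
  unfold WW
  split_ifs
  · refine (E4.sum (F := fun M j => sep (fun t => 1 / 8 * tau r t) (fac M r j 0) (fac M r j 1)
      (fac M r j 2)) (E4.sep ((E1.const (ER.one.div (ER.ofNat 8))).mul (e1_tau r.2))
        (e1_fac Primrec.fst Primrec.snd _ _) (e1_fac Primrec.fst Primrec.snd _ _)
        (e1_fac Primrec.fst Primrec.snd _ _)) (pr_NN Primrec.id)).of_eq fun M q => ?_
    simp only [GG, mul_sum, sep]
    exact sum_congr rfl fun _ _ => by ring
  · simpa using E4.zero

lemma e4_UU (i : Fin 3) : E4 fun a : Machine × List ℕ => UU a.1 a.2 i := by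
  have h : ER fun a : Machine × List ℕ => cw a.1 a.2 i := by
    fin_cases i
    · exact (er_val Primrec.fst (Primrec.const [2])).div (ER.ofNat 8)
    · exact (er_val Primrec.fst (Primrec.list_map (g := fun (a : Machine × List ℕ) x => x % KK a.1)
        Primrec.snd (Primrec₂.mk (by fun_prop)))).div (ER.ofNat 8)
    · exact ER.zero
  have o : E1 fun (_ : Machine × List ℕ) (_ : ℝ) => (1 : ℝ) := E1.const ER.one
  exact ((E4.sep ((E1.const h).mul e1_th.deriv) o o o).add ((e4_U2 i).comp Primrec.fst)).of_eq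
    fun a q => by simp [sep, UU]

noncomputable def VV (M : Machine) (w : List ℕ) (k : ℕ) (x : R3) : R3 :=
  (if k = 0 then cw M w else 0) + WW M (k % 10) x

lemma shear_VV (M : Machine) (w : List ℕ) (k : ℕ) : ∃ S, Shear S (VV M w k) := by
  unfold VV
  split_ifs with h
  · subst h
    exact ⟨Set.univ, fun _ _ h => (h trivial).elim, fun x y _ => by simp only [Nat.zero_mod, WW_zero]⟩
  · simpa using ⟨_, shear_WW M _⟩

lemma UU_eq (M : Machine) (w : List ℕ) (k : ℕ) (t : ℝ) (x : R3) (h1 : (k : ℝ) ≤ t)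
    (h2 : t < k + 1) : fld (UU M w) t x = deriv th (t - k) • VV M w k x := by
  funext i
  simp only [fld, UU, U2, VV, tau_eq h1 h2, Pi.smul_apply, Pi.add_apply, smul_eq_mul, mul_add]
  rw [sum_eq_single ⟨k % 10, Nat.mod_lt _ (by norm_num)⟩
    (fun r _ hr => by rw [if_neg fun h => hr (Fin.ext h), zero_mul]) (by simp), if_pos rfl]
  congr 1
  split_ifs with h
  · simp [h, mul_comm]
  · have : (1 : ℝ) ≤ k := by exact_mod_cast Nat.pos_of_ne_zero h
    rw [dth_ge (by linarith)]; simp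

lemma U2_per (M : Machine) (i k : Fin 3) (q : ℝ × R3) : U2 M i (q + (0, ee k)) = U2 M i q := by
  have : ∀ r j l, fac M r j l ((q.2 + ee k) l) = fac M r j l (q.2 l) := fun r j l => by
    by_cases h : l = k
    · simp [fac, h, ee, pb_per]
    · simp [ee, h]
  simp only [U2, WW, GG, Prod.fst_add, Prod.snd_add, add_zero, this]

end Vale.Agent.P113
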