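import Vale.Agent.P113.Defs

namespace Vale.Agent.P113
open Finset Filter Topology MeasureTheory

lemma cont_dx {E : Type} [NormedAddCommGroup E] [NormedSpace ℝ E] {g : R3 → E}
    (h : ContDiff ℝ 1 g) (j : Fin 3) : Continuous (dx j g) :=
  (h.continuous_fderiv (by simp)).clm_apply continuous_const

lemma smooth_dx {g : R3 → R3} (h : ContDiff ℝ 2 g) (j : Fin 3) : ContDiff ℝ 1 (dx j g) :=
  (h.fderiv_right (m := 1) (by norm_num)).clm_apply contDiff_const

lemma per_dx {E : Type} [NormedAddCommGroup E] [NormedSpace ℝ E] {g : R3 → E} (h : Per g)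
    (j : Fin 3) : Per (dx j g) := fun x i => by
  simp only [dx]
  rw [← fderiv_comp_add_right, funext fun y => h y i]

lemma int_div_zero (G : Fin 3 → R3 → ℝ) (hG : ∀ j, ContDiff ℝ 1 (G j)) (hp : ∀ j, Per (G j)) :
    ∫ x in Set.Icc (0 : R3) 1, ∑ j, dx j (G j) x = 0 := by
  have h := integral_divergence_of_hasFDerivAt_off_countable' (n := 2) (0 : R3) 1 zero_le_one G
    (fun i x => fderiv ℝ (G i) x) ∅ Set.countable_empty (fun i => (hG i).continuous.continuousOn)
    (fun x _ i => ((hG i).differentiable (by simp) x).hasFDerivAt)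
    ((continuous_finsetSum _ fun i _ => cont_dx (hG i) i).continuousOn.integrableOn_compact
      isCompact_Icc)
  refine h.trans (sum_eq_zero fun i _ => sub_eq_zero.2 ?_)
  congr 1
  funext x
  refine Eq.trans (congrArg (G i) ?_) (hp i _ i)
  ext j
  refine Fin.succAboveCases i ?_ (fun k => ?_) j
  · simp [ee]
  · simp [ee]

lemma hd_line {E : Type} [NormedAddCommGroup E] [NormedSpace ℝ E] {g : R3 → E} {x : R3}
    (h : Differentiable ℝ g) (j : Fin 3) :
    HasDerivAt (fun s : ℝ => g (x + s • ee j)) (dx j g x) 0 := by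
  have h1 : HasDerivAt (fun s : ℝ => x + s • ee j) (ee j) 0 := by
    simpa using ((hasDerivAt_id (0 : ℝ)).smul_const (ee j)).const_add x
  have h2 : HasFDerivAt g (fderiv ℝ g x) (x + (0 : ℝ) • ee j) := by
    simpa using (h x).hasFDerivAt
  exact h2.comp_hasDerivAt 0 h1

noncomputable def flux (ν : ℝ) (v u : R3 → R3) (q p : R3 → ℝ) (j : Fin 3) (y : R3) : ℝ :=
  -(1 / 2) * v y j * (∑ i, (v y i - u y i) * (v y i - u y i)) - (q y - p y) * (v y j - u y j) +
    ν * ∑ i, (v y i - u y i) * (dx j v y i - dx j u y i)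

lemma flux_smooth (ν : ℝ) {v u : R3 → R3} {q p : R3 → ℝ} (hv : ContDiff ℝ 2 v)
    (hu : ContDiff ℝ 2 u) (hq : ContDiff ℝ 1 q) (hp : ContDiff ℝ 1 p) (j : Fin 3) :
    ContDiff ℝ 1 (flux ν v u q p j) := by
  have h1 := smooth_dx hv j
  have h2 := smooth_dx hu j
  have h3 : ContDiff ℝ 1 v := hv.of_le (by norm_num)
  have h4 : ContDiff ℝ 1 u := hu.of_le (by norm_num)
  unfold flux
  fun_prop

lemma flux_per (ν : ℝ) {v u : R3 → R3} {q p : R3 → ℝ} (hv : Per v) (hu : Per u) (hq : Per q)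
    (hp : Per p) (j : Fin 3) : Per (flux ν v u q p j) := fun x i => by
  simp only [flux, hv x i, hu x i, hq x i, hp x i, per_dx hv j x i, per_dx hu j x i]

lemma dx_flux (ν : ℝ) {v u : R3 → R3} {q p : R3 → ℝ} (hv : ContDiff ℝ 2 v)
    (hu : ContDiff ℝ 2 u) (hq : ContDiff ℝ 1 q) (hp : ContDiff ℝ 1 p) (j : Fin 3) (x : R3) :
    dx j (flux ν v u q p j) x =
      -(1 / 2) * dx j v x j * (∑ i, (v x i - u x i) * (v x i - u x i)) -
        v x j * (∑ i, (v x i - u x i) * (dx j v x i - dx j u x i)) -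
        ((dx j q x - dx j p x) * (v x j - u x j) + (q x - p x) * (dx j v x j - dx j u x j)) +
        ν * ∑ i, ((dx j v x i - dx j u x i) ^ 2 +
          (v x i - u x i) * (dx j (dx j v) x i - dx j (dx j u) x i)) := by
  have a1 := fun i => hasDerivAt_pi.1 (hd_line (x := x) (hv.differentiable (by simp)) j) i
  have a2 := fun i => hasDerivAt_pi.1 (hd_line (x := x) (hu.differentiable (by simp)) j) i
  have a3 := fun i => hasDerivAt_pi.1 (hd_line (x := x) ((smooth_dx hv j).differentiable (by simp)) j) i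
  have a4 := fun i => hasDerivAt_pi.1 (hd_line (x := x) ((smooth_dx hu j).differentiable (by simp)) j) i
  have a5 := hd_line (x := x) (hq.differentiable (by simp)) j
  have a6 := hd_line (x := x) (hp.differentiable (by simp)) j
  have b1 := fun i => (a1 i).fun_sub (a2 i)
  have b2 := fun i => (a3 i).fun_sub (a4 i)
  have c1 := HasDerivAt.fun_sum fun i (_ : i ∈ univ) => (b1 i).fun_mul (b1 i)
  have c2 := HasDerivAt.fun_sum fun i (_ : i ∈ univ) => (b1 i).fun_mul (b2 i)
  have d := ((((a1 j).const_mul (-(1 / 2))).fun_mul c1).fun_sub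
    ((a5.fun_sub a6).fun_mul (b1 j))).fun_add (c2.const_mul ν)
  rw [(hd_line ((flux_smooth ν hv hu hq hp j).differentiable (by simp)) j).unique d]
  simp only [zero_smul, add_zero, Fin.sum_univ_three]
  ring

lemma quad_le {a b d C : ℝ} (h : |d| ≤ C) : -(a * b * d) ≤ C * (a * a + b * b) / 2 := by
  rw [abs_le] at h
  nlinarith [mul_nonneg (sub_nonneg.2 h.1) (sq_nonneg (a + b)),
    mul_nonneg (sub_nonneg.2 h.2) (sq_nonneg (a - b))]

lemma pointwise {ν C : ℝ} (hν : 0 ≤ ν) {v u : R3 → R3} {q p : R3 → ℝ} (hv : ContDiff ℝ 2 v)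
    (hu : ContDiff ℝ 2 u) (hq : ContDiff ℝ 1 q) (hp : ContDiff ℝ 1 p) (x : R3) {vt ut f : R3}
    (e1 : ∀ i, vt i + ∑ j, v x j * dx j v x i = -dx i q x + ν * ∑ j, dx j (dx j v) x i + f i)
    (e2 : ∀ i, ut i + ∑ j, u x j * dx j u x i = -dx i p x + ν * ∑ j, dx j (dx j u) x i + f i)
    (d1 : ∑ i, dx i v x i = 0) (d2 : ∑ i, dx i u x i = 0) (hC : ∀ j i, |dx j u x i| ≤ C) :
    ∑ i, (v x i - u x i) * (vt i - ut i) ≤
      ∑ j, dx j (flux ν v u q p j) x + 3 * C * ∑ i, (v x i - u x i) * (v x i - u x i) := by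
  have h : ∑ i, (v x i - u x i) * (vt i - ut i) = ∑ j, dx j (flux ν v u q p j) x -
      ν * ∑ j, ∑ i, (dx j v x i - dx j u x i) ^ 2 +
      ∑ j, ∑ i, -((v x i - u x i) * (v x j - u x j) * dx j u x i) := by
    simp only [dx_flux ν hv hu hq hp, Fin.sum_univ_three] at *
    linear_combination (v x 0 - u x 0) * (e1 0 - e2 0) + (v x 1 - u x 1) * (e1 1 - e2 1) +
      (v x 2 - u x 2) * (e1 2 - e2 2) + (q x - p x) * (d1 - d2) +
      1 / 2 * ((v x 0 - u x 0) ^ 2 + (v x 1 - u x 1) ^ 2 + (v x 2 - u x 2) ^ 2) * d1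
  have h1 : 0 ≤ ν * ∑ j, ∑ i, (dx j v x i - dx j u x i) ^ 2 := by positivity
  have h2 : ∑ j, ∑ i, -((v x i - u x i) * (v x j - u x j) * dx j u x i) ≤
      ∑ j, ∑ i, C * ((v x i - u x i) * (v x i - u x i) + (v x j - u x j) * (v x j - u x j)) / 2 :=
    sum_le_sum fun j _ => sum_le_sum fun i _ => quad_le (hC j i)
  have h3 : ∑ j, ∑ i, C * ((v x i - u x i) * (v x i - u x i) + (v x j - u x j) * (v x j - u x j)) / 2
      = 3 * C * ∑ i, (v x i - u x i) * (v x i - u x i) := by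
    simp only [Fin.sum_univ_three]; ring
  linarith

lemma per_int {α : Type} {g : R3 → α} (h : Per g) (i : Fin 3) (n : ℤ) (x : R3) :
    g (x + (n : ℝ) • ee i) = g x := by
  have : Function.Periodic g (ee i) := fun x => h x i
  simpa [Int.cast_smul_eq_zsmul] using this.zsmul n x

lemma per_cube {α : Type} {g : R3 → α} (h : Per g) (x : R3) :
    ∃ y ∈ Set.Icc (0 : R3) 1, g x = g y := by
  refine ⟨fun i => Int.fract (x i), ⟨fun i => Int.fract_nonneg _, fun i => (Int.fract_lt_one _).le⟩, ?_⟩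
  rw [← per_int h 0 ⌊x 0⌋ (fun i => Int.fract (x i)), ← per_int h 1 ⌊x 1⌋ (_ + _),
    ← per_int h 2 ⌊x 2⌋ (_ + _ + _)]
  congr 1
  ext i
  fin_cases i <;> simp [ee]

lemma bdd_box {T : ℝ} {F : ℝ × R3 → ℝ} (h : ContinuousOn F (Set.Icc 0 T ×ˢ Set.univ)) :
    ∃ C, ∀ t ∈ Set.Icc 0 T, ∀ x ∈ Set.Icc (0 : R3) 1, ‖F (t, x)‖ ≤ C := by
  obtain ⟨C, hC⟩ := (isCompact_Icc.prod isCompact_Icc).exists_bound_of_continuousOn
    (h.mono (Set.prod_mono le_rfl (Set.subset_univ (Set.Icc (0 : R3) 1))))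
  exact ⟨C, fun t ht x hx => hC (t, x) ⟨ht, hx⟩⟩

lemma slice_cont {T : ℝ} {F : ℝ × R3 → ℝ} (h : ContinuousOn F (Set.Icc 0 T ×ˢ Set.univ)) {t : ℝ}
    (ht : t ∈ Set.Icc 0 T) : Continuous fun x => F (t, x) :=
  continuousOn_univ.1 (h.comp (by fun_prop) fun x _ => ⟨ht, trivial⟩)

/-- Gronwall for a spatial integral -/
lemma energy_zero {T C : ℝ} {F F' : ℝ × R3 → ℝ}
    (h : ContinuousOn F (Set.Icc 0 T ×ˢ Set.univ)) (h' : ContinuousOn F' (Set.Icc 0 T ×ˢ Set.univ))
    (hd : ∀ t ∈ Set.Icc 0 T, ∀ x, HasDerivWithinAt (fun s => F (s, x)) (F' (t, x)) (Set.Icc 0 T) t)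
    (h0 : ∀ x, F (0, x) = 0) (hp : ∀ q, 0 ≤ F q)
    (hC : ∀ t ∈ Set.Icc 0 T, ∫ x in Set.Icc (0 : R3) 1, F' (t, x) ≤
      C * ∫ x in Set.Icc (0 : R3) 1, F (t, x)) :
    ∀ t ∈ Set.Icc 0 T, ∀ x ∈ Set.Icc (0 : R3) 1, F (t, x) = 0 := by
  obtain ⟨B, hB⟩ := bdd_box h
  obtain ⟨B', hB'⟩ := bdd_box h'
  have hfin : IsFiniteMeasure (volume.restrict (Set.Icc (0 : R3) 1)) :=
    isFiniteMeasure_restrict.2 isCompact_Icc.measure_lt_top.ne
  have hE : ContinuousOn (fun t => ∫ x in Set.Icc (0 : R3) 1, F (t, x)) (Set.Icc 0 T) :=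
    continuousOn_of_dominated (bound := fun _ => B)
      (fun t ht => (slice_cont h ht).aestronglyMeasurable)
      (fun t ht => (ae_restrict_mem measurableSet_Icc).mono fun x hx => hB t ht x hx)
      (integrable_const _)
      (Eventually.of_forall fun x => h.comp (by fun_prop) fun t ht => ⟨ht, trivial⟩)
  have hD : ∀ t ∈ Set.Ioo 0 T, HasDerivAt (fun t => ∫ x in Set.Icc (0 : R3) 1, F (t, x))
      (∫ x in Set.Icc (0 : R3) 1, F' (t, x)) t := fun t ht => by
    have hn : Set.Ioo 0 T ∈ 𝓝 t := Ioo_mem_nhds ht.1 ht.2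
    refine (hasDerivAt_integral_of_dominated_loc_of_deriv_le (F := fun t x => F (t, x))
      (F' := fun t x => F' (t, x)) (bound := fun _ => B') hn ?_ ?_ ?_ ?_ (integrable_const _) ?_).2
    · filter_upwards [hn] with s hs using (slice_cont h (Set.Ioo_subset_Icc_self hs)).aestronglyMeasurable
    · exact (slice_cont h (Set.Ioo_subset_Icc_self ht)).continuousOn.integrableOn_compact isCompact_Icc
    · exact (slice_cont h' (Set.Ioo_subset_Icc_self ht)).aestronglyMeasurable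
    · exact (ae_restrict_mem measurableSet_Icc).mono fun x hx s hs =>
        hB' s (Set.Ioo_subset_Icc_self hs) x hx
    · exact Eventually.of_forall fun x s hs =>
        (hd s (Set.Ioo_subset_Icc_self hs) x).hasDerivAt (Icc_mem_nhds hs.1 hs.2)
  have hD2 : ∀ t ∈ Set.Ioo 0 T, HasDerivAt
      (fun t => Real.exp (-C * t) * ∫ x in Set.Icc (0 : R3) 1, F (t, x))
      (Real.exp (-C * t) * (-C * 1) * (∫ x in Set.Icc (0 : R3) 1, F (t, x)) +
        Real.exp (-C * t) * ∫ x in Set.Icc (0 : R3) 1, F' (t, x)) t := fun t ht =>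
    ((hasDerivAt_id t).const_mul (-C)).exp.fun_mul (hD t ht)
  have hA : AntitoneOn (fun t => Real.exp (-C * t) * ∫ x in Set.Icc (0 : R3) 1, F (t, x))
      (Set.Icc 0 T) := by
    refine antitoneOn_of_deriv_nonpos (convex_Icc 0 T) (ContinuousOn.mul (by fun_prop) hE) ?_ ?_
    · rw [interior_Icc]; exact fun t ht => (hD2 t ht).differentiableAt.differentiableWithinAt
    · rw [interior_Icc]
      intro t ht
      rw [(hD2 t ht).deriv]
      have := mul_le_mul_of_nonneg_left (hC t (Set.Ioo_subset_Icc_self ht)) (Real.exp_pos (-C * t)).le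
      linarith
  intro t ht
  have h1 := hA ⟨le_rfl, ht.1.trans ht.2⟩ ht ht.1
  simp only [h0, integral_zero, mul_zero] at h1
  have h2 : ∫ x in Set.Icc (0 : R3) 1, F (t, x) = 0 :=
    le_antisymm (nonpos_of_mul_nonpos_right h1 (Real.exp_pos _)) (integral_nonneg fun x => hp _)
  rw [setIntegral_eq_zero_iff_of_nonneg_ae (Eventually.of_forall fun x => hp _)
    ((slice_cont h ht).continuousOn.integrableOn_compact isCompact_Icc)] at h2
  refine Measure.eqOn_of_ae_eq h2 (slice_cont h ht).continuousOn continuousOn_const ?_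
  rw [← Set.pi_univ_Icc, interior_pi_set Set.finite_univ, closure_pi_set]
  exact Set.pi_mono fun i _ => by simp [interior_Icc, closure_Ioo]

theorem uniq_u {ν T : ℝ} (hν : 0 ≤ ν) {f v u : ℝ → R3 → R3} {q p : ℝ → R3 → ℝ}
    (hv : IsSol ν f T v q) (hu : IsSol ν f T u p) : ∀ t ∈ Set.Icc 0 T, v t = u t := by
  obtain ⟨vt, c1, e1⟩ := hv.eqn
  obtain ⟨ut, c2, e2⟩ := hu.eqn
  have hb : ∀ ji : Fin 3 × Fin 3, ∃ C, ∀ t ∈ Set.Icc 0 T, ∀ x ∈ Set.Icc (0 : R3) 1,
      ‖dx ji.1 (u t) x ji.2‖ ≤ C := fun ji =>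
    bdd_box (F := fun q => dx ji.1 (u q.1) q.2 ji.2) (continuousOn_pi.1 (hu.cont_du ji.1) ji.2)
  choose C hC using hb
  obtain ⟨D, hD⟩ := (Set.finite_range C).bddAbove
  have a1 := fun i => (continuousOn_pi.1 hv.cont_u i).sub (continuousOn_pi.1 hu.cont_u i)
  have a2 := fun i => (continuousOn_pi.1 c1 i).sub (continuousOn_pi.1 c2 i)
  have b1 : ContinuousOn (fun q : ℝ × R3 => ∑ i, (v q.1 q.2 i - u q.1 q.2 i) *
      (v q.1 q.2 i - u q.1 q.2 i)) (Set.Icc 0 T ×ˢ Set.univ) :=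
    continuousOn_finsetSum _ fun i _ => (a1 i).mul (a1 i)
  have b2 : ContinuousOn (fun q : ℝ × R3 => 2 * ∑ i, (v q.1 q.2 i - u q.1 q.2 i) *
      (vt q.1 q.2 i - ut q.1 q.2 i)) (Set.Icc 0 T ×ˢ Set.univ) :=
    continuousOn_const.mul (continuousOn_finsetSum _ fun i _ => (a1 i).mul (a2 i))
  have key := energy_zero (C := 6 * D) b1 b2 (fun t ht x => by
      have d := fun i => (hasDerivWithinAt_pi.1 (e1 t ht x).1 i).fun_sub
        (hasDerivWithinAt_pi.1 (e2 t ht x).1 i)
      refine (HasDerivWithinAt.fun_sum fun i (_ : i ∈ univ) => (d i).fun_mul (d i)).congr_deriv ?_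
      simp only [Fin.sum_univ_three]; ring)
    (fun x => by simp [hv.init, hu.init]) (fun q => sum_nonneg fun i _ => mul_self_nonneg _)
    (fun t ht => by
      have hs := fun j => flux_smooth ν (hv.space_u t ht) (hu.space_u t ht) (hv.space_p t ht)
        (hu.space_p t ht) j
      have i0 := int_div_zero _ hs fun j => flux_per ν (hv.per_u t ht) (hu.per_u t ht)
        (hv.per_p t ht) (hu.per_p t ht) j
      have i1 : IntegrableOn (fun x => ∑ j, dx j (flux ν (v t) (u t) (q t) (p t) j) x)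
          (Set.Icc (0 : R3) 1) :=
        (continuous_finsetSum _ fun j _ => cont_dx (hs j) j).continuousOn.integrableOn_compact
          isCompact_Icc
      have i2 := (slice_cont b1 ht).continuousOn.integrableOn_compact (μ := volume)
        (isCompact_Icc (a := (0 : R3)) (b := 1))
      have i3 := (slice_cont b2 ht).continuousOn.integrableOn_compact (μ := volume)
        (isCompact_Icc (a := (0 : R3)) (b := 1))
      refine (setIntegral_mono_on i3 ((i1.const_mul 2).add (i2.const_mul (6 * D)))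
        measurableSet_Icc fun x hx => ?_).trans (le_of_eq ?_)
      · have := pointwise (C := D) hν (hv.space_u t ht) (hu.space_u t ht) (hv.space_p t ht)
          (hu.space_p t ht) x (e1 t ht x).2 (e2 t ht x).2 (hv.div t ht x) (hu.div t ht x)
          fun j i => (hC (j, i) t ht x hx).trans (hD ⟨_, rfl⟩)
        simp only [Pi.add_apply]
        linarith
      · simp only [Pi.add_apply]
        rw [integral_add (i1.const_mul 2) (i2.const_mul (6 * D)), integral_const_mul,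
          integral_const_mul, i0]
        simp)
  intro t ht
  funext x
  obtain ⟨y, hy, h⟩ := per_cube (g := fun x => v t x - u t x)
    (fun x i => by simp only [hv.per_u t ht x i, hu.per_u t ht x i]) x
  rw [← sub_eq_zero, h]
  funext i
  exact mul_self_eq_zero.1 ((sum_eq_zero_iff_of_nonneg fun i _ => mul_self_nonneg _).1
    (key t ht y hy) i (mem_univ i))

theorem uniq_p {ν T : ℝ} (hT : 0 < T) {f v u : ℝ → R3 → R3} {q : ℝ → R3 → ℝ}
    (hv : IsSol ν f T v q) (hu : IsSol ν f T u fun _ _ => 0) (h : ∀ t ∈ Set.Icc 0 T, v t = u t) :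
    ∀ t ∈ Set.Icc 0 T, q t = fun _ => 0 := by
  obtain ⟨vt, -, e1⟩ := hv.eqn
  obtain ⟨ut, -, e2⟩ := hu.eqn
  intro t ht
  have h1 : ∀ x i, dx i (q t) x = 0 := fun x i => by
    have a := (e1 t ht x).1.congr (f₁ := fun s => u s x) (fun s hs => by rw [h s hs]) (by rw [h t ht])
    have b := (uniqueDiffOn_Icc hT t ht).eq_deriv _ a (e2 t ht x).1
    have c := (e1 t ht x).2 i
    have d := (e2 t ht x).2 i
    rw [h t ht, b] at c
    have : dx i (fun _ : R3 => (0 : ℝ)) x = 0 := by simp [dx]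
    linarith
  have h2 : ∀ x, fderiv ℝ (q t) x = 0 := fun x => by
    ext y
    have hy : y = ∑ i, y i • ee i := by
      ext i; fin_cases i <;> simp [ee, Fin.sum_univ_three]
    rw [hy, map_sum]
    exact sum_eq_zero fun i _ => by rw [map_smul, show fderiv ℝ (q t) x (ee i) = 0 from h1 x i]; simp
  have h3 := is_const_of_fderiv_eq_zero ((hv.space_p t ht).differentiable (by simp)) h2
  have h4 := hv.mean_p t ht
  rw [funext fun x => h3 x 0] at h4 ⊢
  simp [Measure.real, Real.volume_Icc_pi] at h4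
  rw [h4]

end Vale.Agent.P113
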