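import Vale.Agent.P113.Smooth
import Vale.Agent.P113.Uniq

namespace Vale.Agent.P113
open Finset Filter Topology
open scoped ContDiff

def Shear (S : Set (Fin 3)) (V : R3 → R3) : Prop :=
  (∀ x j, j ∉ S → V x j = 0) ∧ ∀ x y, (∀ j, j ∉ S → x j = y j) → V x = V y

lemma Shear.smul {S : Set (Fin 3)} {V : R3 → R3} (h : Shear S V) (c : ℝ) :
    Shear S fun x => c • V x :=
  ⟨fun x j hj => by simp [h.1 x j hj], fun x y H => by simp only [h.2 x y H]⟩

lemma Shear.dx_in {S : Set (Fin 3)} {V : R3 → R3} (h : Shear S V) (hV : Differentiable ℝ V)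
    {j : Fin 3} (hj : j ∈ S) (x : R3) : dx j V x = 0 := by
  refine (hd_line hV j).unique ?_
  have : (fun s : ℝ => V (x + s • ee j)) = fun _ => V x := funext fun s => h.2 _ _ fun i hi => by
    have : i ≠ j := fun e => hi (e ▸ hj)
    simp [ee, this]
  rw [this]
  exact hasDerivAt_const _ _

lemma Shear.dx_out {S : Set (Fin 3)} {V : R3 → R3} (h : Shear S V) (hV : Differentiable ℝ V)
    {i : Fin 3} (hi : i ∉ S) (j : Fin 3) (x : R3) : dx j V x i = 0 := by
  refine (hasDerivAt_pi.1 (hd_line hV j) i).unique ?_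
  simp only [h.1 _ i hi]
  exact hasDerivAt_const _ _

lemma Shear.move {S : Set (Fin 3)} {V : R3 → R3} (h : Shear S V) (x : R3) (c : ℝ) :
    V (x + c • V x) = V x := h.2 _ _ fun j hj => by simp [h.1 x j hj]

/-- field with components `U i` -/
def fld (U : Fin 3 → ℝ × R3 → ℝ) (t : ℝ) (x : R3) : R3 := fun i => U i (t, x)

noncomputable def lap (F : ℝ × R3 → ℝ) (q : ℝ × R3) : ℝ := ∑ j : Fin 3, mixed [j.succ, j.succ] F q

noncomputable def frc (ν : ℝ) (F : ℝ × R3 → ℝ) (q : ℝ × R3) : ℝ := mixed [0] F q + -ν * lap F q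

lemma fld_smooth {U : Fin 3 → ℝ × R3 → ℝ} (h : ∀ i, ContDiff ℝ ∞ (U i)) :
    ContDiff ℝ ∞ fun q : ℝ × R3 => fld U q.1 q.2 := contDiff_pi.2 h

lemma fld_slice {U : Fin 3 → ℝ × R3 → ℝ} (h : ∀ i, ContDiff ℝ ∞ (U i)) (t : ℝ) :
    ContDiff ℝ ∞ (fld U t) := (fld_smooth h).comp (contDiff_prodMk_right t)

lemma dx_fld {U : Fin 3 → ℝ × R3 → ℝ} (h : ∀ i, ContDiff ℝ ∞ (U i)) (t : ℝ) (j : Fin 3) :
    dx j (fld U t) = fld (fun i => mixed [j.succ] (U i)) t := by
  funext x i
  refine (hasDerivAt_pi.1 (hd_line ((fld_slice h t).differentiable (by simp)) j) i).unique ?_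
  have h1 : HasDerivAt (fun s : ℝ => (t, x + s • ee j)) ((0, ee j) : ℝ × R3) 0 := by
    simpa using (hasDerivAt_const (0 : ℝ) t).prodMk
      (((hasDerivAt_id (0 : ℝ)).smul_const (ee j)).const_add x)
  have h2 : HasFDerivAt (U i) (fderiv ℝ (U i) (t, x)) (t, x + (0 : ℝ) • ee j) := by
    simpa using ((h i).differentiable (by simp) (t, x)).hasFDerivAt
  exact h2.comp_hasDerivAt 0 h1

lemma dt_fld {U : Fin 3 → ℝ × R3 → ℝ} (h : ∀ i, ContDiff ℝ ∞ (U i)) (t : ℝ) (x : R3) :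
    HasDerivAt (fun s => fld U s x) (fld (fun i => mixed [0] (U i)) t x) t :=
  hasDerivAt_pi.2 fun i => ((h i).differentiable (by simp) (t, x)).hasFDerivAt.comp_hasDerivAt t
    ((hasDerivAt_id t).prodMk (hasDerivAt_const t x))

lemma lap_smooth {F : ℝ × R3 → ℝ} (h : ContDiff ℝ ∞ F) : ContDiff ℝ ∞ (lap F) :=
  ContDiff.sum fun _ _ => mixed_smooth h _

lemma frc_smooth (ν : ℝ) {F : ℝ × R3 → ℝ} (h : ContDiff ℝ ∞ F) : ContDiff ℝ ∞ (frc ν F) :=
  (mixed_smooth h _).add (contDiff_const.mul (lap_smooth h))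

lemma frc_shift (ν : ℝ) {F : ℝ × R3 → ℝ} {v : ℝ × R3} (h : ∀ q, F (q + v) = F q) (q : ℝ × R3) :
    frc ν F (q + v) = frc ν F q := by simp only [frc, lap, mixed_shift h]

lemma frc_congr (ν : ℝ) {F G : ℝ × R3 → ℝ} {q : ℝ × R3} (h : F =ᶠ[𝓝 q] G) :
    frc ν F q = frc ν G q := by simp only [frc, lap, (mixed_congr h _).eq_of_nhds]

lemma fld_per {U : Fin 3 → ℝ × R3 → ℝ} (h : ∀ i k q, U i (q + (0, ee k)) = U i q) (t : ℝ) :
    Per (fld U t) := fun x k => funext fun i => by simpa [fld] using h i k (t, x)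

theorem isSol_shear (ν T : ℝ) {U : Fin 3 → ℝ × R3 → ℝ} (h : ∀ i, ContDiff ℝ ∞ (U i))
    (hp : ∀ i k q, U i (q + (0, ee k)) = U i q) (hs : ∀ t, 0 ≤ t → ∃ S, Shear S (fld U t))
    (h0 : ∀ x, fld U 0 x = 0) :
    IsSol ν (fld fun i => frc ν (U i)) T (fld U) fun _ _ => 0 := by
  have hm : ∀ l i, ContDiff ℝ ∞ (mixed l (U i)) := fun l i => mixed_smooth (h i) l
  have hd := fun t => (fld_slice h t).differentiable (by simp)
  refine ⟨fun t _ => fld_per hp t, fun _ _ _ _ => rfl, fun t _ => (fld_slice h t).of_le (nat_le_inf 2),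
    fun _ _ => contDiff_const, (fld_smooth h).continuous.continuousOn, fun i => ?_, fun i j => ?_,
    continuousOn_const, fun i => ?_, fun _ _ => by simp,
    ⟨fld fun i => mixed [0] (U i), (fld_smooth (hm _)).continuous.continuousOn,
      fun t ht x => ⟨(dt_fld h t x).hasDerivWithinAt, fun i => ?_⟩⟩, fun t ht x => ?_, h0⟩
  · simp only [dx_fld h]; exact (fld_smooth (hm _)).continuous.continuousOn
  · simp only [dx_fld h, dx_fld (hm _)]
    exact (fld_smooth fun k => mixed_smooth (hm _ k) _).continuous.continuousOn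
  · simpa [dx] using continuousOn_const
  · obtain ⟨S, hS⟩ := hs t ht.1
    rw [sum_eq_zero fun j _ => by
      by_cases hj : j ∈ S
      · rw [hS.dx_in (hd t) hj]; simp
      · rw [hS.1 x j hj]; simp]
    simp only [dx_fld h, dx_fld (hm _)]
    simp only [fld, frc, lap, dx, ← mixed_append]
    simp
  · obtain ⟨S, hS⟩ := hs t ht.1
    refine sum_eq_zero fun j _ => ?_
    by_cases hj : j ∈ S
    · rw [hS.dx_in (hd t) hj]; simp
    · exact hS.dx_out (hd t) hj j x

/-! ### time profile -/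

noncomputable def th (x : ℝ) : ℝ := Real.smoothTransition (3 * x + -1)

lemma e1_th {A : Type} [Primcodable A] : E1 fun _ : A => th :=
  E1.sigma.affine (c := fun _ => 3) (d := fun _ => -1) (by fun_prop) (by fun_prop)

lemma th_smooth : ContDiff ℝ ∞ th := (e1_th (A := ℕ)).1 0

lemma th_le {x : ℝ} (h : x ≤ 1 / 3) : th x = 0 :=
  Real.smoothTransition.zero_of_nonpos (by linarith)

lemma th_ge {x : ℝ} (h : 2 / 3 ≤ x) : th x = 1 :=
  Real.smoothTransition.one_of_one_le (by linarith)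

lemma dth_le {x : ℝ} (h : x < 1 / 3) : deriv th x = 0 := by
  have : th =ᶠ[𝓝 x] fun _ => 0 := by
    filter_upwards [Iio_mem_nhds h] with y hy using th_le (le_of_lt hy)
  rw [this.deriv_eq]; simp

lemma dth_ge {x : ℝ} (h : 2 / 3 < x) : deriv th x = 0 := by
  have : th =ᶠ[𝓝 x] fun _ => 1 := by
    filter_upwards [Ioi_mem_nhds h] with y hy using th_ge (le_of_lt hy)
  rw [this.deriv_eq]; simp

lemma hd_th (t k : ℝ) : HasDerivAt (fun s => th (s - k)) (deriv th (t - k)) t :=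
  HasDerivAt.comp_sub_const t k ((th_smooth.differentiable (by simp)) (t - k)).hasDerivAt

/-- positions at integer times -/
def orb (a : R3) (V : ℕ → R3 → R3) : ℕ → R3
  | 0 => a
  | k + 1 => orb a V k + V k (orb a V k)

theorem traj_eq {u : ℝ → R3 → R3} {V : ℕ → R3 → R3} (hV : ∀ k, ∃ S, Shear S (V k))
    (hu : ∀ (k : ℕ) t x, (k : ℝ) ≤ t → t < k + 1 → u t x = deriv th (t - k) • V k x)
    {a : R3} {X : ℝ → R3} (hX : Traj u a X) (k : ℕ) :
    ∀ t ∈ Set.Icc (k : ℝ) (k + 1), X t = orb a V k + th (t - k) • V k (orb a V k) := by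
  have main : ∀ k : ℕ, ∀ t ∈ Set.Icc (k : ℝ) (k + 1), X t = X k + th (t - k) • V k (X k) := by
    intro k
    obtain ⟨S, hS⟩ := hV k
    have hk : (0 : ℝ) ≤ k := Nat.cast_nonneg k
    have hc : ContinuousOn X (Set.Icc k (k + 1)) := fun t ht =>
      (hX.2 t (hk.trans ht.1)).continuousWithinAt.mono fun s hs => hk.trans hs.1
    have hd : ∀ t ∈ Set.Ico (k : ℝ) (k + 1),
        HasDerivWithinAt X (deriv th (t - k) • V k (X t)) (Set.Ici t) t := fun t ht =>
      hu k t _ ht.1 ht.2 ▸ (hX.2 t (hk.trans ht.1)).mono (Set.Ici_subset_Ici.2 (hk.trans ht.1))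
    have h1 : ∀ t ∈ Set.Icc (k : ℝ) (k + 1), V k (X t) = V k (X k) := fun t ht =>
      hS.2 _ _ fun j hj => constant_of_has_deriv_right_zero (f := fun s => X s j)
        (continuousOn_pi.1 hc j) (fun s hs => by
          simpa [hS.1 _ j hj] using hasDerivWithinAt_pi.1 (hd s hs) j) t ht
    intro t ht
    have := constant_of_has_deriv_right_zero (f := fun s => X s - th (s - k) • V k (X k))
      (hc.sub (fun s _ => ((hd_th s k).smul_const _).continuousAt.continuousWithinAt))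
      (fun s hs => by
        have := (hd s hs).fun_sub ((hd_th s k).smul_const (V k (X k))).hasDerivWithinAt
        rwa [h1 s (Set.Ico_subset_Icc_self hs), sub_self] at this) t ht
    simp only [sub_self, th_le (show (0 : ℝ) ≤ 1 / 3 by norm_num), zero_smul, sub_zero] at this
    exact sub_eq_iff_eq_add.1 this
  have h2 : ∀ k : ℕ, X k = orb a V k := by
    intro k
    induction k with
    | zero => simpa [orb] using hX.1
    | succ k ih =>
      rw [Nat.cast_succ, main k _ ⟨by linarith, le_rfl⟩, ih, th_ge (by norm_num), one_smul, orb]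
  intro t ht
  rw [main k t ht, h2]

theorem traj_exists {u : ℝ → R3 → R3} {V : ℕ → R3 → R3} (hV : ∀ k, ∃ S, Shear S (V k))
    (hu : ∀ (k : ℕ) t x, (k : ℝ) ≤ t → t < k + 1 → u t x = deriv th (t - k) • V k x) (a : R3) :
    ∃ X, Traj u a X := by
  obtain ⟨Y, hY⟩ : ∃ Y : ℕ → ℝ → R3,
      Y = fun n s => a + ∑ k ∈ range n, th (s - k) • V k (orb a V k) := ⟨_, rfl⟩
  have h1 : ∀ (n : ℕ) (s : ℝ), s < n → Y (⌊s⌋₊ + 1) s = Y n s := by
    have : ∀ (m n : ℕ) (s : ℝ), s < m → m ≤ n → Y m s = Y n s := fun m n s hs hmn => by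
      simp only [hY]
      rw [sum_subset (range_mono hmn) fun k _ hk => ?_]
      have : (m : ℝ) ≤ k := by exact_mod_cast not_lt.1 (mt mem_range.2 hk)
      rw [th_le (by linarith), zero_smul]
    intro n s hs
    rcases le_total (⌊s⌋₊ + 1) n with h | h
    · exact this _ _ _ (by exact_mod_cast Nat.lt_floor_add_one s) h
    · exact (this _ _ _ hs h).symm
  have h2 : ∀ n : ℕ, ∀ s : ℝ, n ≤ s → Y n s = orb a V n := by
    intro n
    induction n with
    | zero => simp [hY, orb]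
    | succ n ih =>
      intro s hs
      push_cast at hs
      have := ih s (by linarith)
      simp only [hY] at this ⊢
      rw [sum_range_succ, ← add_assoc, this, th_ge (by linarith), one_smul, orb]
  refine ⟨fun s => Y (⌊s⌋₊ + 1) s, by simp [hY, th_le], fun t ht => ?_⟩
  have a1 := Nat.floor_le ht
  have a2 := Nat.lt_floor_add_one t
  obtain ⟨S, hS⟩ := hV ⌊t⌋₊
  have h3 : (fun s => Y (⌊s⌋₊ + 1) s) =ᶠ[𝓝 t] Y (⌊t⌋₊ + 1) := by
    filter_upwards [Iio_mem_nhds a2] with s hs using h1 _ s (by exact_mod_cast hs)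
  have h4 : Y (⌊t⌋₊ + 1) t = orb a V ⌊t⌋₊ + th (t - ⌊t⌋₊) • V ⌊t⌋₊ (orb a V ⌊t⌋₊) := by
    have := h2 _ t a1
    simp only [hY] at this ⊢
    rw [sum_range_succ, ← add_assoc, this]
  refine (HasDerivAt.congr_of_eventuallyEq ?_ h3).hasDerivWithinAt
  beta_reduce
  rw [hu _ t _ a1 a2, h4, hS.move, hY]
  refine ((HasDerivAt.fun_sum fun k (_ : k ∈ range (⌊t⌋₊ + 1)) =>
    (hd_th t k).smul_const (V k (orb a V k))).const_add a).congr_deriv ?_
  rw [sum_range_succ, sum_eq_zero fun k hk => ?_, zero_add]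
  have : (k : ℝ) + 1 ≤ ⌊t⌋₊ := by exact_mod_cast mem_range.1 hk
  rw [dth_ge (by linarith), zero_smul]

end Vale.Agent.P113
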