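import Vale.Agent.P113.Defs

namespace Vale.Agent.P113

/-- number of tape symbols -/
def KK (M : Machine) : ℕ := M.2.1 + 1
/-- number of control digits -/
def SS (M : Machine) : ℕ := 4 * ((M.1 + 1) * KK M)
/-- number of digits -/
def DD (M : Machine) : ℕ := KK M + SS M

/-- words written on the two stacks after reading `a, l` and `r` -/
def out (M : Machine) (a l r : ℕ) : List ℕ × List ℕ :=
  if a % 4 < 2 then
    if (rule M (a / 4 / KK M) (a / 4 % KK M)).2.2 = 2 then
      ([4 * ((rule M (a / 4 / KK M) (a / 4 % KK M)).1 * KK M + 0) + 2, KK M + a,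
        (rule M (a / 4 / KK M) (a / 4 % KK M)).2.1, l], [r])
    else if (rule M (a / 4 / KK M) (a / 4 % KK M)).2.2 = 0 then
      ([4 * ((rule M (a / 4 / KK M) (a / 4 % KK M)).1 * KK M + 0) + 3, l],
        [KK M + a, (rule M (a / 4 / KK M) (a / 4 % KK M)).2.1, r])
    else ([4 * ((rule M (a / 4 / KK M) (a / 4 % KK M)).1 * KK M +
        (rule M (a / 4 / KK M) (a / 4 % KK M)).2.1) + 0, KK M + a, l], [r])
  else if a % 4 = 2 then
    if KK M ≤ r then ([a, KK M + a, r, l], [])
    else ([4 * (a / 4 / KK M * KK M + r) + 0, KK M + a, l], [])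
  else
    if KK M ≤ l then ([a], [KK M + a, l, r])
    else ([4 * (a / 4 / KK M * KK M + l) + 1], [KK M + a, r])

abbrev St := List ℕ × List ℕ

def nxt (M : Machine) (s : St) : St :=
  ((out M (s.1.headD 0) (s.1.tail.headD 0) (s.2.headD 0)).1 ++ s.1.tail.tail,
   (out M (s.1.headD 0) (s.1.tail.headD 0) (s.2.headD 0)).2 ++ s.2.tail)

def init (M : Machine) (w : List ℕ) : St := ([2], w.map (· % KK M))

def hlt (M : Machine) (a : ℕ) : Prop := a / 4 / KK M ∈ M.2.2.2

/-- `W` begins the stack `X` (padded with zeros) -/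
def pre : List ℕ → List ℕ → Prop
  | [], _ => True
  | d :: W, X => X.headD 0 = d ∧ pre W X.tail

lemma pre_append (W X : List ℕ) : pre W (W ++ X) := by
  induction W with
  | nil => trivial
  | cons d W ih => exact ⟨rfl, ih⟩

lemma out_key {M : Machine} {a l r : ℕ} {X Y : List ℕ} (h1 : pre (out M a l r).1 X)
    (h2 : pre (out M a l r).2 Y) :
    KK M + a = if X.headD 0 % 2 = 0 then X.tail.headD 0 else Y.headD 0 := by
  unfold out at h1 h2
  split_ifs at h1 h2 <;> simp only [pre] at h1 h2 <;> split_ifs <;> omega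

lemma out_inj {M : Machine} {a l r a' l' r' : ℕ} {X Y : List ℕ} (h1 : pre (out M a l r).1 X)
    (h2 : pre (out M a l r).2 Y) (h3 : pre (out M a' l' r').1 X) (h4 : pre (out M a' l' r').2 Y) :
    a = a' ∧ l = l' ∧ r = r' := by
  have : a = a' := by have := (out_key h1 h2).trans (out_key h3 h4).symm; omega
  subst this
  unfold out at h1 h2 h3 h4
  split_ifs at h1 h2 h3 h4 <;> simp only [pre] at h1 h2 h3 h4 <;> omega

lemma KK_pos (M : Machine) : 0 < KK M := Nat.succ_pos _

lemma rule_lt (M : Machine) (q s : ℕ) :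
    (rule M q s).1 < M.1 + 1 ∧ (rule M q s).2.1 < KK M ∧ (rule M q s).2.2 < 3 :=
  ⟨Nat.mod_lt _ (Nat.succ_pos _), Nat.mod_lt _ (Nat.succ_pos _), Nat.mod_lt _ (by norm_num)⟩

lemma enc_lt {M : Machine} {q s f : ℕ} (hq : q < M.1 + 1) (hs : s < KK M) (hf : f < 4) :
    4 * (q * KK M + s) + f < SS M := by
  have : (q + 1) * KK M ≤ (M.1 + 1) * KK M := Nat.mul_le_mul_right _ hq
  rw [add_mul] at this
  unfold SS; omega

lemma dec {K q s f : ℕ} (hs : s < K) (hf : f < 4) : (4 * (q * K + s) + f) / 4 / K = q ∧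
    (4 * (q * K + s) + f) / 4 % K = s ∧ (4 * (q * K + s) + f) % 4 = f := by
  rw [show (4 * (q * K + s) + f) / 4 = s + K * q by rw [mul_comm K]; omega]
  refine ⟨?_, ?_, by omega⟩
  · rw [Nat.add_mul_div_left _ _ (by omega), Nat.div_eq_of_lt hs, zero_add]
  · rw [Nat.add_mul_mod_self_left, Nat.mod_eq_of_lt hs]

def Dig (M : Machine) (L : List ℕ) : Prop := ∀ d ∈ L, d < DD M

lemma out_good {M : Machine} {a l r : ℕ} (ha : a < SS M) (hl : l < DD M) (hr : r < DD M) :
    Dig M (out M a l r).1 ∧ Dig M (out M a l r).2 ∧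
      ∀ X, ((out M a l r).1 ++ X).headD 0 < SS M := by
  obtain ⟨h1, h2, -⟩ := rule_lt M (a / 4 / KK M) (a / 4 % KK M)
  have h3 : a / 4 / KK M < M.1 + 1 := by
    rw [Nat.div_lt_iff_lt_mul (KK_pos M)]; unfold SS at ha; omega
  have a1 := enc_lt h1 (KK_pos M) (show 2 < 4 by norm_num)
  have a2 := enc_lt h1 (KK_pos M) (show 3 < 4 by norm_num)
  have a3 := enc_lt h1 h2 (show 0 < 4 by norm_num)
  have a4 := fun h : r < KK M => enc_lt h3 h (show 0 < 4 by norm_num)
  have a5 := fun h : l < KK M => enc_lt h3 h (show 1 < 4 by norm_num)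
  unfold out Dig DD at *
  split_ifs <;> simp only [List.mem_cons, List.not_mem_nil, or_false, forall_eq_or_imp, forall_eq,
    List.cons_append, List.headD_cons, implies_true, false_imp_iff, forall_const, true_and] <;> omega

def Good (M : Machine) (s : St) : Prop := s.1.headD 0 < SS M ∧ Dig M s.1 ∧ Dig M s.2

lemma Dig.tail {M : Machine} {L : List ℕ} (h : Dig M L) : Dig M L.tail :=
  fun d hd => h d (List.mem_of_mem_tail hd)

lemma Dig.head {M : Machine} {L : List ℕ} (h : Dig M L) : L.headD 0 < DD M := by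
  cases L with
  | nil => have := KK_pos M; simp only [List.headD_nil, DD]; omega
  | cons d L => exact h d (by simp)

lemma Dig.append {M : Machine} {L L' : List ℕ} (h : Dig M L) (h' : Dig M L') : Dig M (L ++ L') :=
  fun d hd => (List.mem_append.1 hd).elim (h d) (h' d)

lemma Good.nxt {M : Machine} {s : St} (h : Good M s) : Good M (nxt M s) := by
  obtain ⟨h1, h2, h3⟩ := out_good h.1 h.2.1.tail.head h.2.2.head
  exact ⟨h3 _, h1.append h.2.1.tail.tail, h2.append h.2.2.tail⟩

lemma good_init (M : Machine) (w : List ℕ) : Good M (init M w) := by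
  have h := enc_lt (M := M) (Nat.succ_pos _) (KK_pos M) (show 2 < 4 by norm_num)
  simp only [zero_mul, add_zero, mul_zero, zero_add] at h
  refine ⟨h, fun d hd => ?_, fun d hd => ?_⟩
  · simp only [init, List.mem_singleton] at hd
    unfold DD; omega
  · obtain ⟨x, -, rfl⟩ := List.mem_map.1 hd
    have := Nat.mod_lt x (KK_pos M)
    unfold DD; omega

lemma good_iter (M : Machine) (w : List ℕ) (n : ℕ) : Good M ((nxt M)^[n] (init M w)) := by
  induction n with
  | zero => exact good_init M w
  | succ n ih => rw [Function.iterate_succ_apply']; exact ih.nxt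

/-- the stack `L`, garbage removed, lists the tape from `p` in the direction `e` -/
def Side (K : ℕ) (e : ℤ) (τ : ℤ → ℕ) (p : ℤ) (L : List ℕ) : Prop :=
  ∀ i : ℕ, τ (p + e * i) = (L.filter (· < K)).getD i 0

lemma side_real {K : ℕ} {e : ℤ} {τ : ℤ → ℕ} {p : ℤ} {L : List ℕ} {d : ℕ} (h : d < K) :
    Side K e τ p (d :: L) ↔ τ p = d ∧ Side K e τ (p + e) L := by
  simp only [Side, List.filter_cons, h, decide_true, if_true]
  constructor
  · intro H
    refine ⟨by simpa using H 0, fun i => ?_⟩
    have := H (i + 1)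
    rw [List.getD_cons_succ] at this
    rw [← this]; congr 1; push_cast; ring
  · rintro ⟨h1, h2⟩ i
    cases i with
    | zero => simpa using h1
    | succ i => rw [List.getD_cons_succ, ← h2 i]; congr 1; push_cast; ring

lemma side_garb {K : ℕ} {e : ℤ} {τ : ℤ → ℕ} {p : ℤ} {L : List ℕ} {d : ℕ} (h : K ≤ d) :
    Side K e τ p (d :: L) ↔ Side K e τ p L := by
  simp [Side, List.filter_cons, h.not_gt]

lemma side_norm {K : ℕ} (hK : 0 < K) {e : ℤ} {τ : ℤ → ℕ} {p : ℤ} {L : List ℕ} :
    Side K e τ p (L.headD 0 :: L.tail) ↔ Side K e τ p L := by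
  cases L with
  | nil =>
    simp only [Side, List.headD_nil, List.tail_nil, List.filter_cons, hK, decide_true, if_true,
      List.filter_nil]
    refine forall_congr' fun i => ?_
    cases i <;> simp
  | cons d L => rfl

lemma side_upd {K : ℕ} {e : ℤ} {τ : ℤ → ℕ} {h : ℤ} {L : List ℕ} (he : e = 1 ∨ e = -1) (v : ℕ)
    (H : Side K e τ (h + e) L) : Side K e (Function.update τ h v) (h + e) L := fun i => by
  rw [Function.update_of_ne (by rcases he with rfl | rfl <;> omega), H i]

def Rel (M : Machine) (c : Config) (s : St) : Prop :=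
  c.1 = s.1.headD 0 / 4 / KK M ∧
  if s.1.headD 0 % 4 < 2 then c.2.1 c.2.2 = s.1.headD 0 / 4 % KK M ∧
    Side (KK M) (-1) c.2.1 (c.2.2 + -1) s.1.tail ∧ Side (KK M) 1 c.2.1 (c.2.2 + 1) s.2
  else if s.1.headD 0 % 4 = 2 then
    Side (KK M) (-1) c.2.1 (c.2.2 + -1) s.1.tail ∧ Side (KK M) 1 c.2.1 c.2.2 s.2
  else Side (KK M) (-1) c.2.1 c.2.2 s.1.tail ∧ Side (KK M) 1 c.2.1 (c.2.2 + 1) s.2

lemma rel_step {M : Machine} {c : Config} {s : St} (h : Rel M c s) (hf : s.1.headD 0 % 4 < 2) :
    Rel M (step M c) (nxt M s) := by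
  obtain ⟨q, τ, p⟩ := c
  obtain ⟨X, R⟩ := s
  have hK := KK_pos M
  simp only [Rel, hf, if_true] at h
  obtain ⟨h1, h2, h3, h4⟩ := h
  rw [← side_norm hK] at h3 h4
  have h5 := fun v => side_upd (Or.inr rfl) v h3
  have h6 := fun v => side_upd (Or.inl rfl) v h4
  simp only [step, nxt, out, hf, if_true, ← h1, ← h2]
  obtain ⟨-, r2, r3⟩ := rule_lt M q (τ p)
  generalize rule M q (τ p) = ρ at *
  obtain ⟨q', s', d⟩ := ρ
  have g := Nat.le_add_right (KK M) (X.headD 0)
  simp only at r2 r3 ⊢
  split_ifs with e1 e2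
  · obtain ⟨d1, d2, d3⟩ := dec (q := q') hK (show 2 < 4 by norm_num)
    subst e1
    simp only [Rel, List.cons_append, List.headD_cons, List.tail_cons, d1, d3, List.nil_append,
      side_garb g, side_real r2, show (p + ((2 : ℕ) : ℤ) - 1) = p + 1 by push_cast; ring,
      add_neg_cancel_right]
    simpa using And.intro (h5 s') (h6 s')
  · obtain ⟨d1, d2, d3⟩ := dec (q := q') hK (show 3 < 4 by norm_num)
    subst e2
    simp only [Rel, List.cons_append, List.headD_cons, List.tail_cons, d1, d3, List.nil_append,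
      side_garb g, side_real r2, show (p + ((0 : ℕ) : ℤ) - 1) = p + -1 by push_cast; ring,
      neg_add_cancel_right]
    simpa using And.intro (h5 s') (h6 s')
  · obtain ⟨d1, d2, d3⟩ := dec (q := q') r2 (show 0 < 4 by norm_num)
    obtain rfl : d = 1 := by omega
    simp only [Rel, List.cons_append, List.headD_cons, List.tail_cons, d1, d2, d3, List.nil_append,
      side_garb g, show (p + ((1 : ℕ) : ℤ) - 1) = p by push_cast; ring]
    simpa using And.intro (h5 s') (h6 s')

def mu (s : St) : ℕ :=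
  if s.1.headD 0 % 4 < 2 then 0 else if s.1.headD 0 % 4 = 2 then s.2.length + 1 else s.1.length + 1

lemma rel_seek {M : Machine} {c : Config} {s : St} (h : Rel M c s) (hf : ¬ s.1.headD 0 % 4 < 2) :
    Rel M c (nxt M s) ∧ mu (nxt M s) < mu s := by
  obtain ⟨q, τ, p⟩ := c
  obtain ⟨X, R⟩ := s
  have hK := KK_pos M
  simp only [Rel, hf, if_false] at h
  obtain ⟨h1, h2⟩ := h
  have g := Nat.le_add_right (KK M) (X.headD 0)
  simp only [nxt, out, mu, hf, if_false, ← h1]
  simp only at hf
  split_ifs at h2 with e1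
  · obtain ⟨h3, h4⟩ := h2
    rw [← side_norm hK] at h3 h4
    by_cases e2 : KK M ≤ R.headD 0
    · rw [side_garb e2] at h4
      simp only [Rel, e1, e2, if_true, List.cons_append, List.headD_cons, List.tail_cons,
        List.nil_append, side_garb g, side_garb e2, h1, h3, h4]
      cases R with
      | nil => simp at e2; omega
      | cons d R => simp
    · obtain ⟨d1, d2, d3⟩ := dec (q := q) (not_le.1 e2) (show 0 < 4 by norm_num)
      rw [side_real (not_le.1 e2)] at h4
      simp only [Rel, e1, e2, if_true, if_false, List.cons_append, List.headD_cons, List.tail_cons,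
        List.nil_append, side_garb g, d1, d2, d3, h3, h4]
      simp
  · obtain ⟨h3, h4⟩ := h2
    rw [← side_norm hK] at h3 h4
    by_cases e2 : KK M ≤ X.tail.headD 0
    · rw [side_garb e2] at h3
      simp only [Rel, e1, e2, hf, if_true, if_false, List.cons_append, List.headD_cons,
        List.tail_cons, List.nil_append, side_garb g, side_garb e2, h1, h3, h4]
      match X, e2 with
      | [], e2 => simp at e2; omega
      | [_], e2 => simp at e2; omega
      | _ :: _ :: _, _ => simp
    · obtain ⟨d1, d2, d3⟩ := dec (q := q) (not_le.1 e2) (show 1 < 4 by norm_num)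
      rw [side_real (not_le.1 e2)] at h3
      simp only [Rel, e1, e2, if_true, if_false, List.cons_append, List.headD_cons, List.tail_cons,
        List.nil_append, side_garb g, d1, d2, d3, h3, h4]
      simp

lemma rel_prog {M : Machine} {c : Config} : ∀ (n : ℕ) (s : St), mu s < n → Rel M c s →
    ∃ k, Rel M (step M c) ((nxt M)^[k] s) := by
  intro n
  induction n with
  | zero => intro s h; omega
  | succ n ih =>
    intro s h1 h2
    by_cases hf : s.1.headD 0 % 4 < 2
    · exact ⟨1, rel_step h2 hf⟩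
    · obtain ⟨h3, h4⟩ := rel_seek h2 hf
      obtain ⟨k, hk⟩ := ih _ (by omega) h3
      exact ⟨k + 1, hk⟩

lemma rel_init (M : Machine) (w : List ℕ) : Rel M (start M w) (init M w) := by
  refine ⟨by simp [start, init], ?_⟩
  simp only [init, List.headD_cons, List.tail_cons]
  refine ⟨fun i => ?_, fun i => ?_⟩
  · simp only [start]
    rw [if_neg (by omega)]; simp
  · rw [List.filter_eq_self.2 (by
      intro d hd
      obtain ⟨x, -, rfl⟩ := List.mem_map.1 hd
      simpa using Nat.mod_lt x (KK_pos M))]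
    simp only [start, zero_add, one_mul, Nat.cast_nonneg, if_true, Int.toNat_natCast]
    exact (List.getD_map w 0 (· % KK M)).symm.trans (by simp)

theorem halts_iff (M : Machine) (w : List ℕ) :
    (∃ n, hlt M (((nxt M)^[n] (init M w)).1.headD 0)) ↔ Halts M w := by
  constructor
  · rintro ⟨n, hn⟩
    have : ∀ n, ∃ m, Rel M ((step M)^[m] (start M w)) ((nxt M)^[n] (init M w)) := by
      intro n
      induction n with
      | zero => exact ⟨0, rel_init M w⟩
      | succ n ih =>
        obtain ⟨m, hm⟩ := ih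
        rw [Function.iterate_succ_apply']
        by_cases hf : ((nxt M)^[n] (init M w)).1.headD 0 % 4 < 2
        · exact ⟨m + 1, by rw [Function.iterate_succ_apply']; exact rel_step hm hf⟩
        · exact ⟨m, (rel_seek hm hf).1⟩
    obtain ⟨m, hm⟩ := this n
    exact ⟨m, by rw [hm.1]; exact hn⟩
  · rintro ⟨m, hm⟩
    have : ∀ m, ∃ n, Rel M ((step M)^[m] (start M w)) ((nxt M)^[n] (init M w)) := by
      intro m
      induction m with
      | zero => exact ⟨0, rel_init M w⟩
      | succ m ih =>
        obtain ⟨n, hn⟩ := ih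
        obtain ⟨k, hk⟩ := rel_prog _ _ (Nat.lt_succ_self _) hn
        exact ⟨k + n, by rw [Function.iterate_succ_apply', Function.iterate_add_apply]; exact hk⟩
    obtain ⟨n, hn⟩ := this m
    exact ⟨n, by unfold hlt; rw [← hn.1]; exact hm⟩

end Vale.Agent.P113
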