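import Vale.Agent.P113.Flow
import Vale.Agent.P113.Mach

namespace Vale.Agent.P113
open Finset Filter Topology
open scoped ContDiff

noncomputable def cc (M : Machine) : ℝ := (2 * (DD M : ℝ))⁻¹

noncomputable def val (M : Machine) : List ℕ → ℝ
  | [] => 0
  | d :: L => (2 * d + val M L) * cc M

lemma DD_pos (M : Machine) : (1 : ℝ) ≤ DD M := by
  have := KK_pos M
  exact_mod_cast (show 1 ≤ DD M by unfold DD; omega)

lemma cc_pos (M : Machine) : 0 < cc M := by have := DD_pos M; unfold cc; positivity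

lemma cc_mul (M : Machine) : 2 * DD M * cc M = 1 := by
  have := DD_pos M; unfold cc; field_simp

lemma cc_le (M : Machine) : cc M ≤ 1 := by nlinarith [cc_mul M, cc_pos M, DD_pos M]

lemma val_nonneg (M : Machine) (L : List ℕ) : 0 ≤ val M L := by
  induction L with
  | nil => exact le_rfl
  | cons d L ih => have := cc_pos M; unfold val; positivity

lemma val_add_le {M : Machine} {L : List ℕ} (h : Dig M L) : val M L + cc M ^ L.length ≤ 1 := by
  induction L with
  | nil => simp [val]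
  | cons d L ih =>
    have h1 := ih h.tail
    have h2 : (d : ℝ) + 1 ≤ DD M := by exact_mod_cast h d (by simp)
    rw [val, List.length_cons, pow_succ, ← add_mul, ← cc_mul M]
    exact mul_le_mul_of_nonneg_right (by linarith) (cc_pos M).le

lemma val_le {M : Machine} {L : List ℕ} (h : Dig M L) : val M L ≤ 1 := by
  have := val_add_le h
  have := pow_pos (cc_pos M) L.length
  linarith

lemma val_norm (M : Machine) (L : List ℕ) : val M L = val M (L.headD 0 :: L.tail) := by
  cases L <;> simp [val]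

lemma val_append (M : Machine) (W L : List ℕ) :
    val M (W ++ L) = val M W + cc M ^ W.length * val M L := by
  induction W with
  | nil => simp [val]
  | cons d W ih => simp only [List.cons_append, val, ih, List.length_cons]; ring

lemma not_pre {M : Machine} {W : List ℕ} (hW : Dig M W) : ∀ {X : List ℕ}, Dig M X → ¬ pre W X →
    val M X ≤ val M W - cc M ^ W.length ∨
      val M W + cc M ^ W.length + cc M ^ W.length ≤ val M X := by
  induction W with
  | nil => intro X _ h; exact (h trivial).elim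
  | cons d W ih =>
    intro X hX h
    have hc := (cc_pos M).le
    rw [val_norm M X]
    simp only [val, List.length_cons, pow_succ, ← add_mul, ← sub_mul]
    have a1 := val_add_le hW.tail
    have a2 := val_le hX.tail
    have a3 := val_nonneg M W
    have a4 := val_nonneg M X.tail
    have a5 := pow_le_one₀ (n := W.length) hc (cc_le M)
    simp only [List.tail_cons] at a1
    rcases lt_trichotomy (X.headD 0) d with e | e | e
    · have : ((X.headD 0 : ℕ) : ℝ) + 1 ≤ d := by exact_mod_cast e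
      exact Or.inl (mul_le_mul_of_nonneg_right (by linarith) hc)
    · rw [e]
      exact (ih hW.tail hX.tail fun h' => h ⟨e, h'⟩).imp
        (fun h => mul_le_mul_of_nonneg_right (by linarith) hc)
        (fun h => mul_le_mul_of_nonneg_right (by linarith) hc)
    · have : (d : ℝ) + 1 ≤ (X.headD 0 : ℕ) := by exact_mod_cast e
      exact Or.inr (mul_le_mul_of_nonneg_right (by linarith) hc)

/-- plateau `[lo, hi]`, margin `η`, affine profile -/
structure Prm where
  lo : ℝ
  hi : ℝ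
  η : ℝ
  α : ℝ
  β : ℝ

def Prm.aff (p : Prm) (ξ : ℝ) : ℝ := p.α + p.β * (ξ - p.lo)

noncomputable def bump (p : Prm) (ξ : ℝ) : ℝ :=
  (Real.smoothTransition (p.η⁻¹ * ξ + (1 - p.η⁻¹ * p.lo)) -
    Real.smoothTransition (p.η⁻¹ * ξ + -(p.η⁻¹ * p.hi))) * p.aff ξ

def Inn (p : Prm) (ξ : ℝ) : Prop := 0 < p.η ∧ p.lo ≤ ξ ∧ ξ ≤ p.hi

def Outt (p : Prm) (ξ : ℝ) : Prop := 0 < p.η ∧ p.lo ≤ p.hi ∧ (ξ ≤ p.lo - p.η ∨ p.hi + p.η ≤ ξ)

lemma Inn.bump {p : Prm} {ξ : ℝ} (h : Inn p ξ) : bump p ξ = p.aff ξ := by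
  have h0 := (inv_pos.2 h.1).le
  have h1 := mul_le_mul_of_nonneg_left h.2.1 h0
  have h2 := mul_le_mul_of_nonneg_left h.2.2 h0
  rw [P113.bump, Real.smoothTransition.one_of_one_le (by linarith),
    Real.smoothTransition.zero_of_nonpos (by linarith)]
  ring

lemma Outt.bump {p : Prm} {ξ : ℝ} (h : Outt p ξ) : bump p ξ = 0 := by
  have h0 := (inv_pos.2 h.1).le
  have h1 := mul_le_mul_of_nonneg_left h.2.1 h0
  have h3 := inv_mul_cancel₀ h.1.ne'
  rcases h.2.2 with h2 | h2 <;> have h4 := mul_le_mul_of_nonneg_left h2 h0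
  · rw [mul_sub] at h4
    rw [P113.bump, Real.smoothTransition.zero_of_nonpos (by linarith),
      Real.smoothTransition.zero_of_nonpos (by linarith)]
    ring
  · rw [mul_add] at h4
    rw [P113.bump, Real.smoothTransition.one_of_one_le (by linarith),
      Real.smoothTransition.one_of_one_le (by linarith)]
    ring

def wh (α : ℝ) : Prm := ⟨0, 3, 1, α, 0⟩

noncomputable def pb (p : Prm) (s : ℝ) : ℝ :=
  bump (wh 1) (8 * Int.fract s + -2) * bump p (8 * Int.fract s + -2)

lemma pb_eq (p : Prm) {ξ : ℝ} (h0 : 0 ≤ ξ) (h3 : ξ ≤ 3) : pb p ((ξ + 2) / 8) = bump p ξ := by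
  rw [pb, Int.fract_eq_self.2 ⟨by linarith, by linarith⟩, show 8 * ((ξ + 2) / 8) + -2 = ξ by ring,
    Inn.bump (p := wh 1) ⟨one_pos, h0, h3⟩]
  simp [wh, Prm.aff]

lemma pb_per (p : Prm) (s : ℝ) : pb p (s + 1) = pb p s := by simp only [pb, Int.fract_add_one]

def NN (M : Machine) : ℕ := SS M * DD M * DD M
def ja (M : Machine) (j : ℕ) : ℕ := j % SS M
def jl (M : Machine) (j : ℕ) : ℕ := j / SS M % DD M
def jr (M : Machine) (j : ℕ) : ℕ := j / SS M / DD M
def Wx (M : Machine) (j : ℕ) : List ℕ := (out M (ja M j) (jl M j) (jr M j)).1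
def Wy (M : Machine) (j : ℕ) : List ℕ := (out M (ja M j) (jl M j) (jr M j)).2
noncomputable def eps (M : Machine) : ℝ := (2 * (NN M : ℝ))⁻¹
noncomputable def hh (M : Machine) (j : ℕ) : ℝ :=
  2 * eps M * j + if ja M j / 4 / KK M ∈ M.2.2.2 then 2 else 0

noncomputable def wd (M : Machine) (W : List ℕ) (α β : ℝ) : Prm :=
  ⟨val M W, val M W + cc M ^ W.length, cc M ^ W.length, α, β⟩

noncomputable def sl (M : Machine) (j : ℕ) (α β : ℝ) : Prm :=
  ⟨hh M j, hh M j + eps M, eps M, α, β⟩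

noncomputable def prm (M : Machine) (r j : ℕ) : Fin 3 → Prm :=
  match r with
  | 1 => ![wd M [ja M j, jl M j] (hh M j) (eps M / cc M ^ 2), wd M [jr M j] 1 0, wh 0]
  | 2 => ![wh 0, wh 1, sl M j (hh M j - val M [ja M j, jl M j]) (1 - cc M ^ 2 / eps M)]
  | 3 => ![sl M j (-hh M j) (-1), wh 1, wh 0]
  | 4 => ![sl M j 1 0, wd M [jr M j] (hh M j) (eps M / cc M), wh 0]
  | 5 => ![wh 1, wh 0, sl M j (val M (Wy M j) - val M [jr M j])
      ((cc M ^ (Wy M j).length - cc M) / eps M)]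
  | 6 => ![sl M j 1 0, wd M (Wy M j) (-hh M j) (-eps M / cc M ^ (Wy M j).length), wh 0]
  | 7 => ![sl M j (hh M j) 1, wh 1, wh 0]
  | 8 => ![wh 0, wh 1, sl M j (val M (Wx M j) - hh M j) (cc M ^ (Wx M j).length / eps M - 1)]
  | 9 => ![wd M (Wx M j) (-hh M j) (-eps M / cc M ^ (Wx M j).length), wd M (Wy M j) 1 0, wh 0]
  | _ => ![wh 0, wh 0, wh 0]

def tg (r : ℕ) : Fin 3 := if r = 2 ∨ r = 8 then 0 else if r = 5 then 1 else 2

noncomputable def fac (M : Machine) (r j : ℕ) (i : Fin 3) (s : ℝ) : ℝ :=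
  if i = tg r then 1 else pb (prm M r j i) s

noncomputable def GG (M : Machine) (r : ℕ) (x : R3) : ℝ :=
  ∑ j ∈ range (NN M), 1 / 8 * fac M r j 0 (x 0) * fac M r j 1 (x 1) * fac M r j 2 (x 2)

noncomputable def WW (M : Machine) (r : ℕ) (x : R3) : R3 := fun i => if i = tg r then GG M r x else 0

lemma shear_WW (M : Machine) (r : ℕ) : Shear {tg r} (WW M r) := by
  refine ⟨fun x j hj => if_neg hj, fun x y h => ?_⟩
  have : ∀ j i, fac M r j i (x i) = fac M r j i (y i) := fun j i => by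
    unfold fac; split_ifs with hi
    · rfl
    · rw [h i hi]
  funext i
  simp only [WW, GG, this]

lemma WW_zero (M : Machine) (x : R3) : WW M 0 x = 0 := by
  funext i
  simp [WW, GG, fac, tg, prm, pb, bump, wh, Prm.aff]

noncomputable def emb (x y z : ℝ) : R3 := ![(x + 2) / 8, (y + 2) / 8, (z + 2) / 8]

lemma sum_two {N j0 : ℕ} (hj : j0 < N) {p q : ℕ → Prm} {x y : ℝ} (hx : x ∈ Set.Icc (0 : ℝ) 3)
    (hy : y ∈ Set.Icc (0 : ℝ) 3) (h1 : Inn (p j0) x) (h2 : Inn (q j0) y)
    (ho : ∀ j < N, j ≠ j0 → Outt (p j) x ∨ Outt (q j) y) :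
    ∑ j ∈ range N, 1 / 8 * (pb (p j) ((x + 2) / 8) * pb (q j) ((y + 2) / 8)) =
      (p j0).aff x * (q j0).aff y / 8 := by
  simp only [pb_eq _ hx.1 hx.2, pb_eq _ hy.1 hy.2]
  rw [sum_eq_single_of_mem j0 (mem_range.2 hj) fun j hj hne => ?_, h1.bump, h2.bump]
  · ring
  · rcases ho j (mem_range.1 hj) hne with h | h <;> simp [h.bump]

lemma phaseZ {M : Machine} {r j0 : ℕ} (ht : tg r = 2) (hj : j0 < NN M) {x y z z' : ℝ}
    (hx : x ∈ Set.Icc (0 : ℝ) 3) (hy : y ∈ Set.Icc (0 : ℝ) 3) (h1 : Inn (prm M r j0 0) x)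
    (h2 : Inn (prm M r j0 1) y)
    (ho : ∀ j < NN M, j ≠ j0 → Outt (prm M r j 0) x ∨ Outt (prm M r j 1) y)
    (hz : z' = z + (prm M r j0 0).aff x * (prm M r j0 1).aff y) :
    emb x y z + WW M r (emb x y z) = emb x y z' := by
  have := sum_two (p := fun j => prm M r j 0) (q := fun j => prm M r j 1) hj hx hy h1 h2 ho
  have h : GG M r (emb x y z) = _ := Eq.trans (sum_congr rfl fun j _ => by
    simp [fac, ht, emb, mul_assoc]) this
  funext i
  rw [Pi.add_apply, WW, h, ht, hz]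
  fin_cases i <;> simp [emb]
  ring

lemma phaseX {M : Machine} {r j0 : ℕ} (ht : tg r = 0) (hj : j0 < NN M) {x y z x' : ℝ}
    (hy : y ∈ Set.Icc (0 : ℝ) 3) (hz : z ∈ Set.Icc (0 : ℝ) 3) (h1 : Inn (prm M r j0 1) y)
    (h2 : Inn (prm M r j0 2) z) (ho : ∀ j < NN M, j ≠ j0 → Outt (prm M r j 2) z)
    (hx : x' = x + (prm M r j0 1).aff y * (prm M r j0 2).aff z) :
    emb x y z + WW M r (emb x y z) = emb x' y z := by
  have := sum_two (p := fun j => prm M r j 1) (q := fun j => prm M r j 2) hj hy hz h1 h2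
    fun j a b => Or.inr (ho j a b)
  have h : GG M r (emb x y z) = _ := Eq.trans (sum_congr rfl fun j _ => by
    simp [fac, ht, emb, mul_assoc]) this
  funext i
  rw [Pi.add_apply, WW, h, ht, hx]
  fin_cases i <;> simp [emb]
  ring

lemma phaseY {M : Machine} {r j0 : ℕ} (ht : tg r = 1) (hj : j0 < NN M) {x y z y' : ℝ}
    (hx : x ∈ Set.Icc (0 : ℝ) 3) (hz : z ∈ Set.Icc (0 : ℝ) 3) (h1 : Inn (prm M r j0 0) x)
    (h2 : Inn (prm M r j0 2) z) (ho : ∀ j < NN M, j ≠ j0 → Outt (prm M r j 2) z)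
    (hy : y' = y + (prm M r j0 0).aff x * (prm M r j0 2).aff z) :
    emb x y z + WW M r (emb x y z) = emb x y' z := by
  have := sum_two (p := fun j => prm M r j 0) (q := fun j => prm M r j 2) hj hx hz h1 h2
    fun j a b => Or.inr (ho j a b)
  have h : GG M r (emb x y z) = _ := Eq.trans (sum_congr rfl fun j _ => by
    simp [fac, ht, emb, mul_assoc]) this
  funext i
  rw [Pi.add_apply, WW, h, ht, hy]
  fin_cases i <;> simp [emb]
  ring

end Vale.Agent.P113
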