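import Vale.Agent.P113.Eff

namespace Vale.Agent.P113
open Finset Filter Topology
open scoped ContDiff

def OO : Set R3 := {x | ∃ n : ℤ, x 2 - n ∈ Set.Ioo (7 / 16 : ℝ) (11 / 16)}

lemma OO_open : IsOpen OO := by
  rw [OO, Set.setOf_exists]
  exact isOpen_iUnion fun n => isOpen_Ioo.preimage (f := fun x : R3 => x 2 - n) (by fun_prop)

lemma OO_per (x : R3) (i : Fin 3) : x + ee i ∈ OO ↔ x ∈ OO := by
  by_cases h : 2 = i
  · subst h
    simp only [OO, Set.mem_setOf_eq, ee, Pi.add_apply, Pi.single_eq_same]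
    exact ⟨fun ⟨n, hn⟩ => ⟨n - 1, by convert hn using 1; push_cast; ring⟩,
      fun ⟨n, hn⟩ => ⟨n + 1, by convert hn using 1; push_cast; ring⟩⟩
  · simp only [OO, Set.mem_setOf_eq, ee, Pi.add_apply, Pi.single_eq_of_ne h, add_zero]

lemma orb_step (M : Machine) (w : List ℕ) (a : R3) (n r : ℕ) (h1 : 1 ≤ r) (h2 : r < 10) :
    orb a (VV M w) (10 * n + (r + 1)) =
      orb a (VV M w) (10 * n + r) + WW M r (orb a (VV M w) (10 * n + r)) := by
  rw [← add_assoc, orb, VV, if_neg (by omega), zero_add, show (10 * n + r) % 10 = r by omega]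

lemma orb_cycle (M : Machine) (w : List ℕ) (n : ℕ) : orb (emb 0 0 0) (VV M w) (10 * n + 1) =
    emb (val M ((nxt M)^[n] (init M w)).1) (val M ((nxt M)^[n] (init M w)).2) 0 := by
  induction n with
  | zero =>
    funext i
    fin_cases i <;> simp [orb, VV, WW_zero, emb, cw] <;> ring
  | succ n ih =>
    have := (cycle (P := fun r => orb (emb 0 0 0) (VV M w) (10 * n + r)) (good_iter M w n)
      (orb_step M w _ n) ih).1
    rw [Function.iterate_succ_apply', ← this, orb, VV, if_neg (by omega), Nat.mul_mod_right, WW_zero]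
    simp [mul_add]

theorem detect (M : Machine) (w : List ℕ) {X : ℝ → R3} (hX : Traj (fld (UU M w)) (emb 0 0 0) X) :
    (∃ t, 0 ≤ t ∧ X t ∈ OO) ↔ Halts M w := by
  have hT := traj_eq (shear_VV M w) (UU_eq M w) hX
  have hC := fun n => (cycle (P := fun r => orb (emb 0 0 0) (VV M w) (10 * n + r)) (good_iter M w n)
      (orb_step M w _ n) (orb_cycle M w n)).2
  rw [← halts_iff]
  constructor
  · rintro ⟨t, ht, m, hm⟩
    by_contra hn
    push Not at hn
    have h1 : ∀ k, orb (emb 0 0 0) (VV M w) k 2 ∈ Set.Icc (1 / 4 : ℝ) (3 / 8) := fun k => by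
      cases k with
      | zero => simp only [orb, emb, Matrix.cons_val]; constructor <;> norm_num
      | succ k =>
        have := (hC (k / 10)).2 (hn _) (k % 10 + 1) (by omega) (by omega)
        rwa [← add_assoc, Nat.div_add_mod] at this
    have h2 := congrFun (hT ⌊t⌋₊ t ⟨Nat.floor_le ht, (Nat.lt_floor_add_one t).le⟩) 2
    have h3 := h1 ⌊t⌋₊
    have h4 := h1 (⌊t⌋₊ + 1)
    rw [orb] at h4
    simp only [Pi.add_apply, Pi.smul_apply, smul_eq_mul] at h2 h4
    have a1 : 0 ≤ th (t - ⌊t⌋₊) := Real.smoothTransition.nonneg _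
    have a2 : th (t - ⌊t⌋₊) ≤ 1 := Real.smoothTransition.le_one _
    have b1 : 1 / 4 ≤ X t 2 := by nlinarith [h3.1, h4.1]
    have b2 : X t 2 ≤ 3 / 8 := by nlinarith [h3.2, h4.2]
    have c1 : (m : ℝ) < 0 := by linarith [hm.1]
    have c2 : (-1 : ℝ) < m := by linarith [hm.2]
    have d1 : m < 0 := by exact_mod_cast c1
    have d2 : -1 < m := by exact_mod_cast c2
    omega
  · rintro ⟨n, hn⟩
    refine ⟨(10 * n + 2 : ℕ), Nat.cast_nonneg _, 0, ?_⟩
    rw [hT (10 * n + 2) _ ⟨le_rfl, by linarith⟩, sub_self, th_le (by norm_num), zero_smul, add_zero]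
    simpa using (hC n).1 hn

lemma comb {A : Type} [Primcodable A] {ν : ℝ} (hν : CompReal ν) {F1 F2 : A → ℝ} {n : A → ℕ}
    (h1 : PR F1) (h2 : PR F2) (hn : Primrec n) : ∃ g : A → Q3, Computable g ∧
      ∀ s, |F1 s + -ν * F2 s - rat (g s)| ≤ 1 / (n s + 1) := by
  obtain ⟨v, hv, hv'⟩ := hν
  obtain ⟨G1, ⟨g1, p1, e1⟩, b1⟩ := h1
  obtain ⟨c, pc, bc⟩ := h2.bound
  obtain ⟨G2, ⟨g2, p2, e2⟩, b2⟩ := h2
  obtain ⟨b, hb⟩ := exists_nat_ge |ν|
  obtain ⟨N, hN⟩ : ∃ N : A → ℕ, N = fun s => (b + c s + 1) * (2 * n s + 1 + 1) := ⟨_, rfl⟩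
  have pN : Primrec N := by rw [hN]; fun_prop
  have hp : Primrec fun p : A × Q3 =>
      qadd (g1 (p.1, 2 * n p.1 + 1)) (qmul (0, 1, 0) (qmul p.2 (g2 (p.1, N p.1)))) := by fun_prop
  refine ⟨_, hp.to_comp.comp (Computable.id.pair (hv.comp pN.to_comp)), fun s => ?_⟩
  have h1 := b1 s (2 * n s + 1)
  have h2 := mul_approx (n := 2 * n s + 1) hb (bc s) (hv' _) (b2 s _)
  have h7 : (1 : ℝ) / (n s + 1) = 1 / ((2 * n s + 1 : ℕ) + 1) + 1 / ((2 * n s + 1 : ℕ) + 1) := by
    push_cast; field_simp; ring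
  simp only [id]
  rw [rat_add, rat_mul, rat_mul, ← e1, ← e2, h7, hN]
  refine le_trans (le_of_eq ?_) ((abs_sub _ _).trans (add_le_add h1 h2))
  congr 1
  simp only [rat]
  ring

lemma to_code {A B C : Type} [Primcodable A] [Primcodable B] [Primcodable C] {g : A × B → C}
    (hg : Computable g) : ∃ comp : A → Nat.Partrec.Code, Computable comp ∧
      ∀ a s, Encodable.encode (g (a, s)) ∈ (comp a).eval (Encodable.encode s) := by
  obtain ⟨k, hk⟩ := Nat.Partrec.Code.exists_code.1 hg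
  refine ⟨fun a => k.curry (Encodable.encode a),
    (Nat.Partrec.Code.primrec₂_curry.comp (Primrec.const k) Primrec.encode).to_comp,
    fun a s => ?_⟩
  rw [Nat.Partrec.Code.eval_curry, hk]
  have : Nat.pair (Encodable.encode a) (Encodable.encode s) = Encodable.encode (a, s) := rfl
  simp only [this, Encodable.encodek]
  simp

lemma sel {A : Type} [Primcodable A] {G : Fin 3 → A → ℝ × R3 → ℝ} (hG : ∀ i, E4 (G i)) :
    PR fun s : A × Query => mixed s.2.2.1 (G s.2.1 s.1) (point s.2.2.2.1) := by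
  have h := fun i => (hG i).2.comp
    (g := fun s : A × Query => (s.1, s.2.2.1, s.2.2.2.1)) (by fun_prop)
  refine (PR.ite (c := fun s => s.2.1 = 0) (by fun_prop) (h 0)
    (PR.ite (c := fun s => s.2.1 = 1) (by fun_prop) (h 1) (h 2))).of_eq fun s => ?_
  obtain ⟨a, i, s⟩ := s
  fin_cases i <;> simp

theorem compile {A : Type} [Primcodable A] {ν : ℝ} (hν : CompReal ν)
    {F : Fin 3 → A → ℝ × R3 → ℝ} (hF : ∀ i, E4 (F i)) :
    ∃ comp : A → Nat.Partrec.Code, Computable comp ∧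
      ∀ a, Computes (comp a) (fld fun i => frc ν (F i a)) := by
  have hl : ∀ i, E4 fun a => lap (F i a) := fun i => E4.fsum univ fun j => (hF i).mixed _
  obtain ⟨g, hg, hg'⟩ := comb (n := fun s : A × Query => s.2.2.2.2) hν
    (sel fun i => (hF i).mixed [0]) (sel hl) (by fun_prop)
  obtain ⟨comp, h1, h2⟩ := to_code hg
  refine ⟨comp, h1, fun a s => ⟨g (a, s), h2 a s, ?_⟩⟩
  have h3 : mixed s.2.1 (fun q => fld (fun i => frc ν (F i a)) q.1 q.2 s.1) = _ :=
    mixed_lin (mixed_smooth ((hF s.1).1 a) [0]) ((hl s.1).1 a) (-ν) s.2.1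
  rw [h3]
  exact hg' (a, s)

theorem main (ν : ℝ) (hν : 0 < ν) (hc : CompReal ν) :
    ∃ (a : R3) (O : Set R3) (comp : Machine × List ℕ → Nat.Partrec.Code) (T0 : ℝ)
      (f : Machine → List ℕ → ℝ → R3 → R3),
      IsOpen O ∧ (∀ x i, x + ee i ∈ O ↔ x ∈ O) ∧ Computable comp ∧
      (∀ M, ∃ (g : ℝ → R3 → R3) (P : ℝ), 0 < P ∧ (∀ t, g (t + P) = g t) ∧
        ∀ w t, T0 ≤ t → f M w t = g t) ∧
      ∀ M w, ContDiff ℝ ∞ (fun q : ℝ × R3 => f M w q.1 q.2) ∧ (∀ t, Per (f M w t)) ∧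
        Computes (comp (M, w)) (f M w) ∧
        ∃ (u : ℝ → R3 → R3) (p : ℝ → R3 → ℝ),
          ContDiff ℝ ∞ (fun q : ℝ × R3 => u q.1 q.2) ∧ ContDiff ℝ ∞ (fun q : ℝ × R3 => p q.1 q.2) ∧
          (∀ T, 0 < T → IsSol ν (f M w) T u p ∧
            ∀ v q, IsSol ν (f M w) T v q → ∀ t ∈ Set.Icc 0 T, v t = u t ∧ q t = p t) ∧
          (∃ X, Traj u a X) ∧
          ∀ X, Traj u a X → ((∃ t, 0 ≤ t ∧ X t ∈ O) ↔ Halts M w) := by
  obtain ⟨comp, h1, h2⟩ := compile hc e4_UU
  have hp : ∀ M w i k q, UU M w i (q + (0, ee k)) = UU M w i q := fun M w i k q => by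
    simp only [UU, U2_per, Prod.fst_add, add_zero]
  refine ⟨emb 0 0 0, OO, comp, 1, fun M w => fld fun i => frc ν (UU M w i), OO_open, OO_per, h1,
    fun M => ⟨fld fun i => frc ν (U2 M i), 10, by norm_num, fun t => ?_, fun w t ht => ?_⟩,
    fun M w => ?_⟩
  · funext x i
    simpa [fld] using frc_shift ν (F := U2 M i) (v := (10, 0))
      (fun q => by simp only [U2, Prod.fst_add, Prod.snd_add, add_zero, tau_per]) (t, x)
  · funext x i
    refine frc_congr ν ?_
    filter_upwards [(isOpen_Ioi.preimage continuous_fst).mem_nhds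
      (show (t, x).1 ∈ Set.Ioi (2 / 3 : ℝ) by simp only [Set.mem_Ioi]; linarith)] with q hq
    rw [UU, dth_ge hq, mul_zero, zero_add]
  · have hs : ∀ i, ContDiff ℝ ∞ (UU M w i) := fun i => (e4_UU i).1 (M, w)
    have sol := fun T => isSol_shear ν T hs (hp M w) (fun t ht => by
      obtain ⟨S, hS⟩ := shear_VV M w ⌊t⌋₊
      exact ⟨S, (funext fun x => UU_eq M w _ t x (Nat.floor_le ht) (Nat.lt_floor_add_one t)) ▸
        hS.smul _⟩) fun x => by
      rw [UU_eq M w 0 0 x (by simp) (by simp), dth_le (by norm_num), zero_smul]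
    exact ⟨fld_smooth fun i => frc_smooth ν (hs i),
      fld_per fun i k q => frc_shift ν (hp M w i k) q, h2 (M, w), fld (UU M w), fun _ _ => 0,
      fld_smooth hs, contDiff_const, fun T hT => ⟨sol T, fun v q h t ht =>
        ⟨uniq_u hν.le h (sol T) t ht, uniq_p hT h (sol T) (uniq_u hν.le h (sol T)) t ht⟩⟩,
      traj_exists (shear_VV M w) (UU_eq M w) _, fun X hX => detect M w hX⟩

end Vale.Agent.P113
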