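import Vale.Agent.P113.Comp

namespace Vale.Agent.P113
open Finset Filter Topology
open scoped ContDiff

abbrev Mon := Bool × ℕ × ℕ × ℕ × ℕ

def mstep (m : Mon) : List Mon :=
  [(m.1, m.2.1 * m.2.2.1, m.2.2.1, m.2.2.2.1 + 2, m.2.2.2.2),
   (m.1, m.2.1 * m.2.2.1, m.2.2.1, m.2.2.2.1, m.2.2.2.2 + 2),
   (!m.1, m.2.1 * m.2.2.1, m.2.2.1 + 1, m.2.2.2.1 + 2, m.2.2.2.2),
   (!m.1, m.2.1 * m.2.2.1, m.2.2.1 + 1, m.2.2.2.1, m.2.2.2.2 + 2),
   (!m.1, m.2.1 * m.2.2.2.1, m.2.2.1, m.2.2.2.1 + 1, m.2.2.2.2),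
   (m.1, m.2.1 * m.2.2.2.2, m.2.2.1, m.2.2.2.1, m.2.2.2.2 + 1)]

noncomputable def sg (x : ℝ) : ℝ := (1 + Real.exp (x⁻¹ - (1 - x)⁻¹))⁻¹

noncomputable def mval (x : ℝ) (m : Mon) : ℝ :=
  (if m.1 = true then -1 else 1) * m.2.1 * x⁻¹ ^ m.2.2.2.1 * (1 - x)⁻¹ ^ m.2.2.2.2 * sg x ^ m.2.2.1

def mons (n : ℕ) : List Mon := (fun l => l.flatMap mstep)^[n] [(false, 1, 1, 0, 0)]

lemma sg_eq {x : ℝ} (h0 : 0 < x) (h1 : x < 1) : Real.smoothTransition x = sg x := by
  have h2 : ¬ (1 - x ≤ 0) := by linarith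
  simp only [Real.smoothTransition, expNegInvGlue, h0.not_ge, h2, if_false, sg]
  rw [Real.exp_sub, Real.exp_neg, Real.exp_neg]
  have := Real.exp_pos x⁻¹
  have := Real.exp_pos (1 - x)⁻¹
  field_simp

lemma hd_b {x : ℝ} (h0 : 0 < x) : HasDerivAt (fun x : ℝ => x⁻¹) (-(x⁻¹ ^ 2)) x := by
  simpa using hasDerivAt_inv h0.ne'

lemma hd_c {x : ℝ} (h1 : x < 1) : HasDerivAt (fun x : ℝ => (1 - x)⁻¹) ((1 - x)⁻¹ ^ 2) x := by
  have := ((hasDerivAt_id x).const_sub 1).inv (by simp only [id]; linarith)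
  exact this.congr_deriv (by simp)

lemma hd_sg {x : ℝ} (h0 : 0 < x) (h1 : x < 1) :
    HasDerivAt sg (sg x * (1 - sg x) * (x⁻¹ ^ 2 + (1 - x)⁻¹ ^ 2)) x := by
  have hp := Real.exp_pos (x⁻¹ - (1 - x)⁻¹)
  have := (((hd_b h0).sub (hd_c h1)).exp.const_add 1).inv (by simp only [Pi.sub_apply]; positivity)
  refine this.congr_deriv ?_
  simp only [sg, Pi.sub_apply]
  generalize x⁻¹ ^ 2 = B
  generalize (1 - x)⁻¹ ^ 2 = C
  field_simp
  ring

lemma hd_pow {g : ℝ → ℝ} {x d : ℝ} (h : HasDerivAt g (g x * d) x) (i : ℕ) :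
    HasDerivAt (fun y => g y ^ i) (i * g x ^ i * d) x := by
  refine (h.fun_pow i).congr_deriv ?_
  cases i with
  | zero => simp
  | succ i => simp only [Nat.add_sub_cancel, pow_succ]; ring

lemma hd_mval {x : ℝ} (h0 : 0 < x) (h1 : x < 1) (m : Mon) :
    HasDerivAt (fun y => mval y m) ((mstep m).map (mval x)).sum x := by
  obtain ⟨s, c, i, j, k⟩ := m
  have a1 := hd_pow (g := fun x : ℝ => x⁻¹) (d := -x⁻¹) ((hd_b h0).congr_deriv (by ring)) j
  have a2 := hd_pow (g := fun x : ℝ => (1 - x)⁻¹) (d := (1 - x)⁻¹)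
    ((hd_c h1).congr_deriv (by ring)) k
  have a3 := hd_pow (g := sg) (d := (1 - sg x) * (x⁻¹ ^ 2 + (1 - x)⁻¹ ^ 2))
    ((hd_sg h0 h1).congr_deriv (by ring)) i
  have := ((a1.const_mul ((if s = true then -1 else 1) * c : ℝ)).fun_mul a2).fun_mul a3
  refine this.congr_deriv ?_
  simp only [mstep, mval, List.map_cons, List.map_nil, List.sum_cons, List.sum_nil]
  generalize x⁻¹ = b
  generalize (1 - x)⁻¹ = c
  cases s <;> simp <;> ring

lemma hd_list {x : ℝ} (h0 : 0 < x) (h1 : x < 1) (l : List Mon) :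
    HasDerivAt (fun y => (l.map (mval y)).sum) ((l.flatMap mstep).map (mval x)).sum x := by
  induction l with
  | nil => simpa using hasDerivAt_const x (0 : ℝ)
  | cons m l ih =>
    simp only [List.map_cons, List.sum_cons, List.flatMap_cons, List.map_append, List.sum_append]
    exact (hd_mval h0 h1 m).fun_add ih

lemma iter_sigma (n : ℕ) : ∀ x, 0 < x → x < 1 →
    iteratedDeriv n Real.smoothTransition x = ((mons n).map (mval x)).sum := by
  induction n with
  | zero => intro x h0 h1; simp [mons, mval, sg_eq h0 h1]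
  | succ n ih =>
    intro x h0 h1
    rw [iteratedDeriv_succ, mons, Function.iterate_succ_apply']
    have : iteratedDeriv n Real.smoothTransition =ᶠ[𝓝 x] fun y => ((mons n).map (mval y)).sum := by
      filter_upwards [Ioo_mem_nhds h0 h1] with y hy using ih y hy.1 hy.2
    rw [this.deriv_eq]
    exact (hd_list h0 h1 _).deriv

lemma iter_closure {φ : ℝ → ℝ} (hφ : ContDiff ℝ ∞ φ) {U : Set ℝ} (hU : IsOpen U) {c : ℝ}
    (h : ∀ x ∈ U, φ x = c) (n : ℕ) {x : ℝ} (hx : x ∈ closure U) :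
    iteratedDeriv n φ x = if n = 0 then c else 0 := by
  have h1 : Set.EqOn (iteratedDeriv n φ) (fun _ => if n = 0 then c else 0) U := fun y hy => by
    rw [Set.EqOn.iteratedDeriv_of_isOpen (g := fun _ => c) h hU n hy, iteratedDeriv_const]
  exact h1.closure (hφ.continuous_iteratedDeriv n (by exact_mod_cast le_top)) continuous_const hx

lemma sigma_le {x : ℝ} (h : x ≤ 0) (n : ℕ) : iteratedDeriv n Real.smoothTransition x = 0 := by
  rw [iter_closure Real.smoothTransition.contDiff isOpen_Iio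
    (fun y (hy : y < 0) => Real.smoothTransition.zero_of_nonpos hy.le) n (by simpa using h)]
  simp

lemma sigma_ge {x : ℝ} (h : 1 ≤ x) (n : ℕ) :
    iteratedDeriv n Real.smoothTransition x = if n = 0 then 1 else 0 :=
  iter_closure Real.smoothTransition.contDiff isOpen_Ioi
    (fun y (hy : 1 < y) => Real.smoothTransition.one_of_one_le hy.le) n (by simpa using h)

lemma list_sum_range {α : Type} (d : α) (f : α → ℝ) (l : List α) :
    (l.map f).sum = ∑ i ∈ range l.length, f (l.getD i d) := by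
  induction l with
  | nil => simp
  | cons a l ih => simp [sum_range_succ', ih, add_comm]

lemma pr_mons : Primrec mons :=
  Primrec.nat_iterate (f := fun n => n) (g := fun _ => [((false, 1, 1, 0, 0) : Mon)])
    (h := fun _ l => l.flatMap mstep) Primrec.id (Primrec.const _)
    (Primrec.list_flatMap (f := fun p : ℕ × List Mon => p.2) (g := fun _ m => mstep m) Primrec.snd
      (Primrec₂.mk (by unfold mstep; fun_prop)))

variable {A : Type} [Primcodable A]

lemma pr_mval {x : A → ℝ} {m : A → Mon} (hx : ER x) (hm : Primrec m) :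
    PR fun a => mval (x a) (m a) := by
  unfold mval sg
  have h1 : ER fun a => (x a)⁻¹ := hx.inv
  have h2 : ER fun a => (1 - x a)⁻¹ := (ER.one.sub hx).inv
  refine PR.mul (ER.pr (ER.mul (ER.mul (ER.mul ?_ (ER.nat (by fun_prop)))
    (h1.pow (by fun_prop))) (h2.pow (by fun_prop)))) ?_
  · exact ER.ite (by fun_prop) ER.one.neg ER.one
  · exact PR.inv_pow (ER.one.pr.add (PR.exp (h1.sub h2)))
      (fun a => le_add_of_nonneg_right (Real.exp_pos _).le) (by fun_prop)

theorem pr_sigma {x : A → ℝ} {n : A → ℕ} (hx : ER x) (hn : Primrec n) :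
    PR fun a => iteratedDeriv (n a) Real.smoothTransition (x a) := by
  classical
  have hm : Primrec fun a => mons (n a) := pr_mons.comp hn
  have h1 : PR fun a => ∑ i ∈ range (mons (n a)).length,
      mval (x a) ((mons (n a)).getD i (false, 0, 0, 0, 0)) :=
    PR.sum (F := fun a i => mval (x a) ((mons (n a)).getD i (false, 0, 0, 0, 0)))
      (pr_mval (hx.comp Primrec.fst) (pr_getD _ (hm.comp Primrec.fst) Primrec.snd)) (pr_length hm)
  refine (PR.ite (hx.le ER.zero) ER.zero.pr (PR.ite (ER.one.le hx)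
    (ER.ite (c := fun a => n a = 0) (by fun_prop) ER.one ER.zero).pr h1)).of_eq fun a => ?_
  by_cases h0 : x a ≤ 0
  · rw [if_pos h0, sigma_le h0]
  · rw [if_neg h0]
    by_cases h2 : 1 ≤ x a
    · rw [if_pos h2, sigma_ge h2]
    · rw [if_neg h2, iter_sigma _ _ (not_le.1 h0) (not_le.1 h2), list_sum_range]

end Vale.Agent.P113
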