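import Vale.Agent.P113.Sigma

namespace Vale.Agent.P113
open Finset Filter Topology
open scoped ContDiff

variable {A B : Type} [Primcodable A] [Primcodable B]

lemma nat_le_inf (n : ℕ) : (n : WithTop ℕ∞) ≤ ∞ := by exact_mod_cast le_top

/-- effective families of smooth functions of one variable -/
def E1 (φ : A → ℝ → ℝ) : Prop := (∀ a, ContDiff ℝ ∞ (φ a)) ∧
  PR fun s : A × ℕ × Q3 => iteratedDeriv s.2.1 (φ s.1) (rat s.2.2)

theorem E1.app {φ : A → ℝ → ℝ} (h : E1 φ) {a : B → A} {n : B → ℕ} {x : B → ℝ} (ha : Primrec a)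
    (hn : Primrec n) (hx : ER x) : PR fun b => iteratedDeriv (n b) (φ (a b)) (x b) := by
  obtain ⟨g, h1, h2⟩ := hx
  exact (h.2.comp (g := fun b => (a b, n b, g b)) (by fun_prop)).of_eq fun b => by simp only [h2]

theorem E1.comp {φ : A → ℝ → ℝ} (h : E1 φ) {a : B → A} (ha : Primrec a) : E1 fun b => φ (a b) :=
  ⟨fun _ => h.1 _, h.app (ha.comp Primrec.fst) (by fun_prop) (ER.rat (by fun_prop))⟩

theorem E1.of_eq {φ ψ : A → ℝ → ℝ} (h : E1 φ) (H : ∀ a s, φ a s = ψ a s) : E1 ψ :=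
  (funext₂ H : φ = ψ) ▸ h

theorem E1.sigma : E1 fun _ : A => Real.smoothTransition :=
  ⟨fun _ => Real.smoothTransition.contDiff, pr_sigma (ER.rat (by fun_prop)) (by fun_prop)⟩

theorem E1.const {c : A → ℝ} (hc : ER c) : E1 fun a _ => c a :=
  ⟨fun _ => contDiff_const, ((ER.ite (c := fun s : A × ℕ × Q3 => s.2.1 = 0) (by fun_prop)
    (hc.comp Primrec.fst) ER.zero).pr).of_eq fun s => by rw [iteratedDeriv_const]⟩

theorem E1.id : E1 fun (_ : A) (s : ℝ) => s :=
  ⟨fun _ => contDiff_id, ((ER.ite (c := fun s : A × ℕ × Q3 => s.2.1 = 0) (by fun_prop)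
    (ER.rat (g := fun s => s.2.2) (by fun_prop)) (ER.ite (c := fun s : A × ℕ × Q3 => s.2.1 = 1)
      (by fun_prop) ER.one ER.zero)).pr).of_eq fun s => by rw [iteratedDeriv_fun_id]⟩

theorem E1.add {φ ψ : A → ℝ → ℝ} (h : E1 φ) (h' : E1 ψ) : E1 fun a s => φ a s + ψ a s :=
  ⟨fun a => (h.1 a).add (h'.1 a), (h.2.add h'.2).of_eq fun s => by
    rw [iteratedDeriv_fun_add ((h.1 _).of_le (nat_le_inf _)).contDiffAt
      ((h'.1 _).of_le (nat_le_inf _)).contDiffAt]⟩

theorem E1.mul {φ ψ : A → ℝ → ℝ} (h : E1 φ) (h' : E1 ψ) : E1 fun a s => φ a s * ψ a s := by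
  refine ⟨fun a => (h.1 a).mul (h'.1 a), (PR.sum (N := fun s : A × ℕ × Q3 => s.2.1 + 1)
    (F := fun s i => ((s.2.1.factorial / (i.factorial * (s.2.1 - i).factorial) : ℕ) : ℝ) *
      iteratedDeriv i (φ s.1) (rat s.2.2) * iteratedDeriv (s.2.1 - i) (ψ s.1) (rat s.2.2))
    (((ER.nat (by fun_prop)).pr.mul (h.app (by fun_prop) (by fun_prop) (ER.rat (by fun_prop)))).mul
      (h'.app (by fun_prop) (by fun_prop) (ER.rat (by fun_prop)))) (by fun_prop)).of_eq fun s => ?_⟩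
  rw [iteratedDeriv_fun_mul ((h.1 _).of_le (nat_le_inf _)).contDiffAt
      ((h'.1 _).of_le (nat_le_inf _)).contDiffAt]
  refine sum_congr rfl fun i hi => ?_
  rw [Nat.choose_eq_factorial_div_factorial (Nat.lt_succ_iff.1 (mem_range.1 hi))]

theorem E1.sub {φ ψ : A → ℝ → ℝ} (h : E1 φ) (h' : E1 ψ) : E1 fun a s => φ a s - ψ a s :=
  (h.add ((E1.const ER.one.neg).mul h')).of_eq fun _ _ => by ring

theorem E1.affine {φ : A → ℝ → ℝ} (h : E1 φ) {c d : A → ℝ} (hc : ER c) (hd : ER d) :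
    E1 fun a s => φ a (c a * s + d a) := by
  refine ⟨fun a => (h.1 a).comp (by fun_prop), (((hc.comp Primrec.fst).pow
    (n := fun s : A × ℕ × Q3 => s.2.1) (by fun_prop)).pr.mul
    (h.app (a := fun s : A × ℕ × Q3 => s.1) (n := fun s => s.2.1)
      (x := fun s => c s.1 * rat s.2.2 + d s.1)
      (by fun_prop) (by fun_prop) (by fun_prop))).of_eq fun s => ?_⟩
  rw [iteratedDeriv_comp_const_mul (f := fun z => φ s.1 (z + d s.1))
    (((h.1 _).of_le (nat_le_inf _)).comp (by fun_prop)), iteratedDeriv_comp_add_const]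

theorem E1.deriv {φ : A → ℝ → ℝ} (h : E1 φ) : E1 fun a => deriv (φ a) :=
  ⟨fun a => (contDiff_infty_iff_deriv.1 (h.1 a)).2,
    (h.app (a := fun s : A × ℕ × Q3 => s.1) (n := fun s => s.2.1 + 1) (x := fun s => rat s.2.2)
      (by fun_prop) (by fun_prop) (by fun_prop)).of_eq fun s => by rw [iteratedDeriv_succ']⟩

lemma per_eventually {φ : ℝ → ℝ} (h0 : ∀ s, s ≤ 1 / 100 → φ s = 0)
    (h1 : ∀ s, 99 / 100 ≤ s → φ s = 0) (x : ℝ) :
    (fun s => φ (Int.fract s)) =ᶠ[𝓝 x] fun s => φ (s - ⌊x⌋) := by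
  have a1 := Int.floor_le x
  have a2 := Int.lt_floor_add_one x
  filter_upwards [Ioo_mem_nhds (show (⌊x⌋ : ℝ) - 1 / 100 < x by linarith) a2] with s hs
  rcases lt_or_ge s ⌊x⌋ with h | h
  · have : ⌊s⌋ = ⌊x⌋ - 1 := Int.floor_eq_iff.2 ⟨by push_cast; linarith [hs.1], by push_cast; linarith⟩
    rw [h0 (s - _) (by linarith), h1]
    rw [Int.fract, this]; push_cast; linarith [hs.1]
  · rw [Int.fract, Int.floor_eq_iff.2 ⟨h, hs.2⟩]

theorem E1.per {φ : A → ℝ → ℝ} (h : E1 φ) (h0 : ∀ a s, s ≤ 1 / 100 → φ a s = 0)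
    (h1 : ∀ a s, 99 / 100 ≤ s → φ a s = 0) : E1 fun a s => φ a (Int.fract s) := by
  refine ⟨fun a => contDiff_iff_contDiffAt.2 fun x => ContDiffAt.congr_of_eventuallyEq
    ((h.1 a).comp (by fun_prop)).contDiffAt (per_eventually (h0 a) (h1 a) x),
    (h.app (a := fun s : A × ℕ × Q3 => s.1) (n := fun s => s.2.1)
      (x := fun s => Int.fract (rat s.2.2))
      (by fun_prop) (by fun_prop) (by fun_prop)).of_eq fun s => ?_⟩
  rw [(per_eventually (h0 _) (h1 _) _).iteratedDeriv_eq, iteratedDeriv_comp_sub_const]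
  rfl

/-! ### mixed derivatives -/

lemma mixed_cons (i : Fin 4) (l : List (Fin 4)) (F : ℝ × R3 → ℝ) :
    mixed (i :: l) F = fun q => fderiv ℝ (mixed l F) q (dir i) := rfl

lemma mixed_append (l l' : List (Fin 4)) (F : ℝ × R3 → ℝ) :
    mixed (l ++ l') F = mixed l (mixed l' F) := by simp [mixed, List.foldr_append]

lemma mixed_smooth {F : ℝ × R3 → ℝ} (h : ContDiff ℝ ∞ F) (l : List (Fin 4)) :
    ContDiff ℝ ∞ (mixed l F) := by
  induction l with
  | nil => exact h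
  | cons i l ih => exact (ih.fderiv_right (m := ∞) le_rfl).clm_apply contDiff_const

lemma mixed_lin {F G : ℝ × R3 → ℝ} (hF : ContDiff ℝ ∞ F) (hG : ContDiff ℝ ∞ G) (c : ℝ)
    (l : List (Fin 4)) : mixed l (fun q => F q + c * G q) = fun q => mixed l F q + c * mixed l G q := by
  induction l with
  | nil => rfl
  | cons i l ih =>
    funext q
    have h1 := ((mixed_smooth hF l).differentiable (by simp) q).hasFDerivAt
    have h2 := ((mixed_smooth hG l).differentiable (by simp) q).hasFDerivAt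
    simp only [mixed_cons, ih]
    rw [(h1.fun_add (h2.const_mul c)).fderiv]
    simp

lemma mixed_zero (l : List (Fin 4)) : mixed l (fun _ => 0) = fun _ => 0 := by
  induction l with
  | nil => rfl
  | cons i l ih => simp [mixed_cons, ih]

lemma mixed_sum {F : ℕ → ℝ × R3 → ℝ} (hF : ∀ i, ContDiff ℝ ∞ (F i)) (l : List (Fin 4)) (n : ℕ) :
    mixed l (fun q => ∑ i ∈ range n, F i q) = fun q => ∑ i ∈ range n, mixed l (F i) q := by
  induction n with
  | zero => simpa using mixed_zero l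
  | succ n ih =>
    have := mixed_lin (ContDiff.sum fun i (_ : i ∈ range n) => hF i) (hF n) 1 l
    simp only [one_mul] at this
    simp only [sum_range_succ, this, ih]

lemma mixed_shift {F : ℝ × R3 → ℝ} {v : ℝ × R3} (h : ∀ q, F (q + v) = F q) (l : List (Fin 4)) :
    ∀ q, mixed l F (q + v) = mixed l F q := by
  induction l with
  | nil => exact h
  | cons i l ih =>
    intro q
    simp only [mixed_cons]
    rw [← fderiv_comp_add_right, funext ih]

lemma mixed_congr {F G : ℝ × R3 → ℝ} {q : ℝ × R3} (h : F =ᶠ[𝓝 q] G) (l : List (Fin 4)) :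
    mixed l F =ᶠ[𝓝 q] mixed l G := by
  induction l with
  | nil => exact h
  | cons i l ih =>
    filter_upwards [ih.fderiv (𝕜 := ℝ)] with y hy
    simp only [mixed_cons, hy]

noncomputable def sep (a b c d : ℝ → ℝ) (q : ℝ × R3) : ℝ :=
  a q.1 * b (q.2 0) * c (q.2 1) * d (q.2 2)

lemma sep_smooth {a b c d : ℝ → ℝ} (ha : ContDiff ℝ ∞ a) (hb : ContDiff ℝ ∞ b)
    (hc : ContDiff ℝ ∞ c) (hd : ContDiff ℝ ∞ d) : ContDiff ℝ ∞ (sep a b c d) := by
  unfold sep; fun_prop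

lemma hfd_crd {b : ℝ → ℝ} (hb : Differentiable ℝ b) (i : Fin 3) (q : ℝ × R3) :
    HasFDerivAt (fun q : ℝ × R3 => b (q.2 i))
      (deriv b (q.2 i) • ((ContinuousLinearMap.proj i).comp (ContinuousLinearMap.snd ℝ ℝ R3))) q :=
  (hb _).hasDerivAt.comp_hasFDerivAt q
    ((ContinuousLinearMap.proj (R := ℝ) (φ := fun _ : Fin 3 => ℝ) i).comp
      (ContinuousLinearMap.snd ℝ ℝ R3)).hasFDerivAt

lemma fderiv_sep {a b c d : ℝ → ℝ} (ha : Differentiable ℝ a) (hb : Differentiable ℝ b)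
    (hc : Differentiable ℝ c) (hd : Differentiable ℝ d) (q v : ℝ × R3) :
    fderiv ℝ (sep a b c d) q v = v.1 * sep (deriv a) b c d q + v.2 0 * sep a (deriv b) c d q +
      v.2 1 * sep a b (deriv c) d q + v.2 2 * sep a b c (deriv d) q := by
  have h0 : HasFDerivAt (fun q : ℝ × R3 => a q.1)
      (deriv a q.1 • (ContinuousLinearMap.fst ℝ ℝ R3)) q :=
    (ha _).hasDerivAt.comp_hasFDerivAt q (ContinuousLinearMap.fst ℝ ℝ R3).hasFDerivAt
  have := (((h0.fun_mul (hfd_crd hb 0 q)).fun_mul (hfd_crd hc 1 q)).fun_mul (hfd_crd hd 2 q)).fderiv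
  unfold sep
  rw [this]
  simp
  ring

lemma mixed_sep {a b c d : ℝ → ℝ} (ha : ContDiff ℝ ∞ a) (hb : ContDiff ℝ ∞ b)
    (hc : ContDiff ℝ ∞ c) (hd : ContDiff ℝ ∞ d) (l : List (Fin 4)) :
    mixed l (sep a b c d) = sep (iteratedDeriv (l.count 0) a) (iteratedDeriv (l.count 1) b)
      (iteratedDeriv (l.count 2) c) (iteratedDeriv (l.count 3) d) := by
  induction l with
  | nil => simp [mixed]
  | cons i l ih =>
    funext q
    have hD : ∀ {a : ℝ → ℝ}, ContDiff ℝ ∞ a → ∀ n, Differentiable ℝ (iteratedDeriv n a) :=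
      fun h n => h.differentiable_iteratedDeriv n (by exact_mod_cast ENat.coe_lt_top n)
    simp only [mixed_cons, ih]
    rw [fderiv_sep (hD ha _) (hD hb _) (hD hc _) (hD hd _)]
    fin_cases i
    · simp [dir, List.count_cons, iteratedDeriv_succ]
    · simp [show dir 1 = (0, ee 0) from rfl, ee, List.count_cons, iteratedDeriv_succ]
    · simp [show dir 2 = (0, ee 1) from rfl, ee, List.count_cons, iteratedDeriv_succ]
    · simp [show dir 3 = (0, ee 2) from rfl, ee, List.count_cons, iteratedDeriv_succ]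

abbrev Pt := Q3 × Q3 × Q3 × Q3

/-- effective families of smooth functions on space-time -/
def E4 (F : A → ℝ × R3 → ℝ) : Prop := (∀ a, ContDiff ℝ ∞ (F a)) ∧
  PR fun s : A × List (Fin 4) × Pt => mixed s.2.1 (F s.1) (point s.2.2)

theorem E4.of_eq {φ ψ : A → ℝ × R3 → ℝ} (h : E4 φ) (H : ∀ a s, φ a s = ψ a s) : E4 ψ :=
  (funext₂ H : φ = ψ) ▸ h

theorem E4.comp {F : A → ℝ × R3 → ℝ} (h : E4 F) {a : B → A} (ha : Primrec a) :
    E4 fun b => F (a b) :=
  ⟨fun _ => h.1 _, h.2.comp (g := fun s : B × List (Fin 4) × Pt => (a s.1, s.2)) (by fun_prop)⟩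

theorem E4.sep {a b c d : A → ℝ → ℝ} (ha : E1 a) (hb : E1 b) (hc : E1 c) (hd : E1 d) :
    E4 fun x => sep (a x) (b x) (c x) (d x) := by
  have hl : Primrec fun s : A × List (Fin 4) × Pt => s.2.1 := by fun_prop
  refine ⟨fun x => sep_smooth (ha.1 x) (hb.1 x) (hc.1 x) (hd.1 x),
    ((((ha.app Primrec.fst (pr_count 0 hl) (ER.rat (g := fun s => s.2.2.1) (by fun_prop))).mul
    (hb.app Primrec.fst (pr_count 1 hl) (ER.rat (g := fun s => s.2.2.2.1) (by fun_prop)))).mul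
    (hc.app Primrec.fst (pr_count 2 hl) (ER.rat (g := fun s => s.2.2.2.2.1) (by fun_prop)))).mul
    (hd.app Primrec.fst (pr_count 3 hl) (ER.rat (g := fun s => s.2.2.2.2.2) (by fun_prop)))).of_eq
      fun s => ?_⟩
  rw [mixed_sep (ha.1 _) (hb.1 _) (hc.1 _) (hd.1 _)]
  simp [P113.sep, point]

theorem E4.add {F G : A → ℝ × R3 → ℝ} (h : E4 F) (h' : E4 G) : E4 fun a q => F a q + G a q :=
  ⟨fun a => (h.1 a).add (h'.1 a), (h.2.add h'.2).of_eq fun s => by
    have := mixed_lin (h.1 s.1) (h'.1 s.1) 1 s.2.1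
    simp only [one_mul] at this
    rw [this]⟩

theorem E4.zero : E4 fun (_ : A) _ => 0 :=
  ⟨fun _ => contDiff_const, ER.zero.pr.of_eq fun s => by rw [mixed_zero]⟩

theorem E4.sum {F : A → ℕ → ℝ × R3 → ℝ} {N : A → ℕ} (h : E4 fun p : A × ℕ => F p.1 p.2)
    (hN : Primrec N) : E4 fun a q => ∑ i ∈ range (N a), F a i q :=
  ⟨fun a => ContDiff.sum fun i _ => h.1 (a, i),
    (PR.sum (F := fun (s : A × List (Fin 4) × Pt) i => mixed s.2.1 (F s.1 i) (point s.2.2))
      (N := fun s => N s.1)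
      (h.2.comp (g := fun p : (A × List (Fin 4) × Pt) × ℕ => ((p.1.1, p.2), p.1.2)) (by fun_prop))
      (by fun_prop)).of_eq fun s => by rw [mixed_sum (fun i => h.1 (s.1, i))]⟩

theorem E4.fsum {ι : Type} {F : ι → A → ℝ × R3 → ℝ} (s : Finset ι) (h : ∀ i, E4 (F i)) :
    E4 fun a q => ∑ i ∈ s, F i a q := by
  classical
  induction s using Finset.induction_on with
  | empty => simpa using E4.zero
  | insert i s hi ih => exact ((h i).add ih).of_eq fun a q => by rw [sum_insert hi]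

theorem E4.mixed {F : A → ℝ × R3 → ℝ} (h : E4 F) (l : List (Fin 4)) : E4 fun a => mixed l (F a) :=
  ⟨fun a => mixed_smooth (h.1 a) l,
    (h.2.comp (g := fun s : A × List (Fin 4) × Pt => (s.1, s.2.1 ++ l, s.2.2)) (by fun_prop)).of_eq
      fun s => by simp only [mixed_append]⟩

end Vale.Agent.P113
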